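import Vale.Agent.P146.H191.FYS
import Vale.Agent.P146.H364.Mis
import Vale.Agent.P146.H350.F2Mat

/-!
Plan R2, row F2, the part of the rest transversal to the top direction: the algebra. With
`u = M / |M|` (frozen) the transversal part of a column of `C` in the seminorm of `Y` is the column
of `C - C²/|C|` up to touches.
-/

open MeasureTheory ProbabilityTheory Finset

namespace Vale.Agent.P146.H571

open Vale.Agent.P146.H191
open Vale.Agent.P146.H350 (mv)

set_option linter.unusedSectionVars false

section alg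

variable {n : ℕ} {Y : Fin n → Fin n → ℝ}

/-- `(1 - M/|M|) f` -/
noncomputable def qv (M : Fin n → Fin n → ℝ) (f : Fin n → ℝ) (i : Fin n) : ℝ :=
  f i - mv M f i / fro M

/-- `C - C²/|C|` -/
noncomputable def rm (C : Fin n → Fin n → ℝ) (i j : Fin n) : ℝ :=
  C i j - (∑ l, C i l * C l j) / fro C

lemma mv_sub (M : Fin n → Fin n → ℝ) (f g : Fin n → ℝ) (i : Fin n) :
    mv M (fun i => f i - g i) i = mv M f i - mv M g i := by
  unfold mv
  rw [← Finset.sum_sub_distrib]
  exact Finset.sum_congr rfl fun j _ => by ring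

lemma qv_sub (M : Fin n → Fin n → ℝ) (f g : Fin n → ℝ) (i : Fin n) :
    qv M (fun i => f i - g i) i = qv M f i - qv M g i := by
  unfold qv
  rw [mv_sub]
  ring

lemma bY_smul (Y : Fin n → Fin n → ℝ) (c : ℝ) (f : Fin n → ℝ) :
    bY Y (fun i => c * f i) (fun i => c * f i) = c ^ 2 * bY Y f f := by
  unfold bY
  rw [Finset.mul_sum]
  refine Finset.sum_congr rfl fun i _ => ?_
  rw [Finset.mul_sum]
  exact Finset.sum_congr rfl fun l _ => by ring

/-- the triangle inequality -/
lemma vn_add_le (h : Pf Y) (f g : Fin n → ℝ) : vn Y (fun i => f i + g i) ≤ vn Y f + vn Y g := by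
  have h1 : vn Y (fun i => f i + g i) ^ 2 ≤ (vn Y f + vn Y g) ^ 2 := by
    rw [h.vn_sq]
    have e : bY Y (fun i => f i + g i) (fun i => f i + g i) =
        bY Y f f + 2 * bY Y f g + bY Y g g := by
      have e1 : bY Y g f = bY Y f g := h.comm g f
      have e2 : bY Y (fun i => f i + g i) (fun i => f i + g i) =
          bY Y f f + bY Y f g + bY Y g f + bY Y g g := by
        unfold bY
        simp only [← Finset.sum_add_distrib]
        exact Finset.sum_congr rfl fun i _ => Finset.sum_congr rfl fun l _ => by ring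
      rw [e2, e1]
      ring
    have h2 := (le_abs_self _).trans (h.cs f g)
    have h3 := h.vn_sq f
    have h4 := h.vn_sq g
    rw [e]
    nlinarith
  exact (abs_le_of_sq_le_sq' h1 (add_nonneg (vn_nonneg _ _) (vn_nonneg _ _))).2

lemma vn_smul (_h : Pf Y) (c : ℝ) (f : Fin n → ℝ) : vn Y (fun i => c * f i) = |c| * vn Y f := by
  unfold vn
  rw [bY_smul, Real.sqrt_mul (sq_nonneg c), Real.sqrt_sq_eq_abs]

/-- two terms -/
lemma bY_sub_le (h : Pf Y) (f g : Fin n → ℝ) :
    bY Y (fun i => f i - g i) (fun i => f i - g i) ≤ 2 * bY Y f f + 2 * bY Y g g := by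
  have h1 := h.ps fun i => f i + g i
  have e : bY Y (fun i => f i - g i) (fun i => f i - g i) +
      ∑ i, ∑ l, Y i l * ((f i + g i) * (f l + g l)) = 2 * bY Y f f + 2 * bY Y g g := by
    unfold bY
    simp only [Finset.mul_sum, ← Finset.sum_add_distrib]
    exact Finset.sum_congr rfl fun i _ => Finset.sum_congr rfl fun l _ => by ring
  linarith

/-- three terms -/
lemma bY_three (h : Pf Y) (f g e : Fin n → ℝ) :
    bY Y (fun i => f i - g i + e i) (fun i => f i - g i + e i) ≤
      3 * bY Y f f + 3 * bY Y g g + 3 * bY Y e e := by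
  have h1 := h.ps fun i => f i + g i
  have h2 := h.ps fun i => f i - e i
  have h3 := h.ps fun i => g i + e i
  have e1 : bY Y (fun i => f i - g i + e i) (fun i => f i - g i + e i) +
      ∑ i, ∑ l, Y i l * ((f i + g i) * (f l + g l)) +
      ∑ i, ∑ l, Y i l * ((f i - e i) * (f l - e l)) +
      ∑ i, ∑ l, Y i l * ((g i + e i) * (g l + e l)) =
      3 * bY Y f f + 3 * bY Y g g + 3 * bY Y e e := by
    unfold bY
    simp only [Finset.mul_sum, ← Finset.sum_add_distrib]
    exact Finset.sum_congr rfl fun i _ => Finset.sum_congr rfl fun l _ => by ring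
  linarith

/-- `|M|` is Lipschitz -/
lemma fro_sub_abs (M C : Fin n → Fin n → ℝ) :
    |fro M - fro C| ≤ fro (fun i j => C i j - M i j) := by
  rw [abs_le]
  have h1 := fro_add M (fun i j => C i j - M i j)
  have h2 := fro_add C (fun i j => -(C i j - M i j))
  have e1 : fro (fun i j => M i j + (C i j - M i j)) = fro C := fro_congr fun i j => by ring
  have e2 : fro (fun i j => C i j + -(C i j - M i j)) = fro M := fro_congr fun i j => by ring
  rw [e1] at h1
  rw [e2, fro_neg fun i j => C i j - M i j] at h2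
  constructor <;> linarith

/-- the column of a matrix -/
lemma sn_mul_vec (h : Pf Y) (X : Fin n → Fin n → ℝ) (v : Fin n → ℝ) :
    vn Y (mv X v) ≤ sn Y X * ven v := h.vn_mulVec X v

/-- `u C e_b - u_b C e_b` in the seminorm -/
lemma vn_tch (h : Pf Y) {M C : Fin n → Fin n → ℝ} (hm : 0 < fro M) (hc : 0 < fro C)
    (v : Fin n → ℝ) :
    vn Y (fun i => mv C v i / fro C - mv M v i / fro M) ≤
      ven v / fro C * (sn Y (fun i j => C i j - M i j) +
        fro (fun i j => C i j - M i j) * (sn Y M / fro M)) := by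
  obtain ⟨X, hX⟩ : ∃ X : Fin n → Fin n → ℝ, X = fun i j => C i j - M i j := ⟨_, rfl⟩
  rw [← hX]
  have e : (fun i => mv C v i / fro C - mv M v i / fro M) =
      fun i => (1 / fro C) * mv X v i + (1 / fro C - 1 / fro M) * mv M v i := by
    funext i
    have : mv X v i = mv C v i - mv M v i := by
      unfold mv
      rw [← Finset.sum_sub_distrib]
      exact Finset.sum_congr rfl fun j _ => by rw [hX]; ring
    rw [this]
    ring
  rw [e]
  refine (vn_add_le h _ _).trans ?_
  rw [vn_smul h, vn_smul h]
  have h1 := sn_mul_vec h X v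
  have h2 := sn_mul_vec h M v
  have h3 : |1 / fro C - 1 / fro M| ≤ fro X / (fro C * fro M) := by
    have e3 : 1 / fro C - 1 / fro M = (fro M - fro C) / (fro C * fro M) := by
      field_simp
    rw [e3, abs_div, abs_of_pos (mul_pos hc hm)]
    have := fro_sub_abs M C
    rw [← hX] at this
    gcongr
  have h4 : |1 / fro C| = 1 / fro C := abs_of_pos (by positivity)
  rw [h4]
  have h5 := vn_nonneg Y (mv M v)
  have h6 := fro_nonneg X
  have h7 := sn_nonneg Y M
  calc 1 / fro C * vn Y (mv X v) + |1 / fro C - 1 / fro M| * vn Y (mv M v)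
      ≤ 1 / fro C * (sn Y X * ven v) + fro X / (fro C * fro M) * (sn Y M * ven v) := by
        gcongr
    _ = _ := by
        field_simp

/-- the sum of two errors -/
lemma two_sq (x y : ℝ) : (x + y) ^ 2 ≤ 2 * (x ^ 2 + y ^ 2) := by nlinarith [sq_nonneg (x - y)]

/-- the touch number of a row -/
noncomputable def tn (Y M C : Fin n → Fin n → ℝ) : ℝ :=
  bM Y (fun i j => C i j - M i j) (fun i j => C i j - M i j) +
    fro (fun i j => C i j - M i j) ^ 2 * (bM Y M M / fro M ^ 2)

lemma tn_nonneg (h : Pf Y) (M C : Fin n → Fin n → ℝ) : 0 ≤ tn Y M C := by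
  unfold tn
  have := h.bM_nonneg (fun i j => C i j - M i j)
  have := h.bM_nonneg M
  positivity

lemma tch_sq (h : Pf Y) {M C : Fin n → Fin n → ℝ} :
    (sn Y (fun i j => C i j - M i j) + fro (fun i j => C i j - M i j) * (sn Y M / fro M)) ^ 2 ≤
      2 * tn Y M C := by
  refine (two_sq _ _).trans (le_of_eq ?_)
  unfold tn
  rw [mul_pow, div_pow, h.sn_sq, h.sn_sq]

/-- the touch of a column -/
lemma bY_tch (h : Pf Y) {M C : Fin n → Fin n → ℝ} (hm : 0 < fro M) (hc : 0 < fro C)
    (v : Fin n → ℝ) :
    bY Y (fun i => mv C v i / fro C - mv M v i / fro M)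
      (fun i => mv C v i / fro C - mv M v i / fro M) ≤
      ven v ^ 2 / fro C ^ 2 * (2 * tn Y M C) := by
  rw [← h.vn_sq]
  refine (pow_le_pow_left₀ (vn_nonneg _ _) (vn_tch h hm hc v) 2).trans ?_
  rw [mul_pow, div_pow]
  exact mul_le_mul_of_nonneg_left (tch_sq h) (by positivity)

/-- **The transversal part of a column.** -/
theorem perp_U (h : Pf Y) {M C : Fin n → Fin n → ℝ} {b : Fin n} (hb : ∀ i, M i b = 0)
    (hC1 : C b b = 1) (hm : 0 < fro M) (hc : 0 < fro C) :
    bY Y (qv M fun i => if i = b then 0 else C i b) (qv M fun i => if i = b then 0 else C i b) ≤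
      3 * bY Y (fun i => rm C i b) (fun i => rm C i b) + 3 * Y b b +
        6 * ((∑ i, C i b ^ 2) / fro C ^ 2) * tn Y M C := by
  have e : (qv M fun i => if i = b then 0 else C i b) = fun i =>
      rm C i b - (if i = b then 1 else 0) +
        (mv C (fun j => C j b) i / fro C - mv M (fun j => C j b) i / fro M) := by
    funext i
    unfold qv
    have e1 : mv M (fun i => if i = b then 0 else C i b) i = mv M (fun j => C j b) i := by
      unfold mv
      refine Finset.sum_congr rfl fun j _ => ?_
      by_cases hj : j = b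
      · subst hj
        rw [hb i]
        ring
      · simp only [if_neg hj]
    have e2 : rm C i b = C i b - mv C (fun j => C j b) i / fro C := rfl
    rw [e1, e2]
    by_cases hi : i = b
    · simp only [if_pos hi]
      rw [hi, hC1]
      ring
    · simp only [if_neg hi]
      ring
  rw [e]
  have h1 := bY_three h (fun i => rm C i b) (fun i => if i = b then (1 : ℝ) else 0)
    (fun i => mv C (fun j => C j b) i / fro C - mv M (fun j => C j b) i / fro M)
  have h2 : bY Y (fun i => if i = b then (1 : ℝ) else 0) (fun i => if i = b then (1 : ℝ) else 0) =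
      Y b b := by
    unfold bY
    simp
  have h3 := bY_tch h hm hc (fun j => C j b)
  rw [ven_sq] at h3
  rw [h2] at h1
  refine h1.trans ?_
  have e3 : 6 * ((∑ i, C i b ^ 2) / fro C ^ 2) * tn Y M C =
      3 * ((∑ i, C i b ^ 2) / fro C ^ 2 * (2 * tn Y M C)) := by ring
  rw [e3]
  linarith

/-- **The transversal part of the frozen matrix.** -/
theorem perp_M (h : Pf Y) {M C : Fin n → Fin n → ℝ} (hm : 0 < fro M) (hc : 0 < fro C) :
    bM Y (rm M) (rm M) ≤ 3 * bM Y (rm C) (rm C) + 12 * tn Y M C := by
  obtain ⟨X, hX⟩ : ∃ X : Fin n → Fin n → ℝ, X = fun i j => C i j - M i j := ⟨_, rfl⟩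
  have hcol : ∀ j, bY Y (fun i => rm M i j) (fun i => rm M i j) ≤
      3 * bY Y (fun i => rm C i j) (fun i => rm C i j) +
      3 * bY Y (qv M fun i => X i j) (qv M fun i => X i j) +
      3 * (ven (fun i => C i j) ^ 2 / fro C ^ 2 * (2 * tn Y M C)) := by
    intro j
    have e : (fun i => rm M i j) = fun i => rm C i j - qv M (fun i => X i j) i +
        (mv C (fun i => C i j) i / fro C - mv M (fun i => C i j) i / fro M) := by
      funext i
      have e1 : mv M (fun i => X i j) i = mv M (fun i => C i j) i - mv M (fun i => M i j) i := by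
        rw [hX]
        exact mv_sub M _ _ i
      have e2 : rm C i j = C i j - mv C (fun l => C l j) i / fro C := rfl
      have e3 : rm M i j = M i j - mv M (fun l => M l j) i / fro M := rfl
      rw [e2, e3]
      unfold qv
      rw [e1, hX]
      ring
    rw [e]
    have h1 := bY_three h (fun i => rm C i j) (qv M fun i => X i j)
      (fun i => mv C (fun i => C i j) i / fro C - mv M (fun i => C i j) i / fro M)
    have h2 := bY_tch h hm hc (fun i => C i j)
    refine h1.trans ?_
    linarith
  have hq : ∀ j, bY Y (qv M fun i => X i j) (qv M fun i => X i j) ≤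
      2 * bY Y (fun i => X i j) (fun i => X i j) +
        2 * (bM Y M M / fro M ^ 2 * ven (fun i => X i j) ^ 2) := by
    intro j
    have e : (qv M fun i => X i j) = fun i => X i j - 1 / fro M * mv M (fun i => X i j) i := by
      funext i
      unfold qv
      ring
    rw [e]
    refine (bY_sub_le h (fun i => X i j) fun i => 1 / fro M * mv M (fun i => X i j) i).trans ?_
    rw [bY_smul, ← h.vn_sq (mv M fun i => X i j)]
    have h3 := pow_le_pow_left₀ (vn_nonneg _ _) (sn_mul_vec h M fun i => X i j) 2
    rw [mul_pow, h.sn_sq] at h3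
    have h4 : (1 / fro M) ^ 2 * vn Y (mv M fun i => X i j) ^ 2 ≤
        (1 / fro M) ^ 2 * (bM Y M M * ven (fun i => X i j) ^ 2) :=
      mul_le_mul_of_nonneg_left h3 (by positivity)
    have e5 : (1 / fro M) ^ 2 * (bM Y M M * ven (fun i => X i j) ^ 2) =
        bM Y M M / fro M ^ 2 * ven (fun i => X i j) ^ 2 := by
      rw [div_pow]
      ring
    rw [e5] at h4
    linarith
  have s1 : ∀ Z : Fin n → Fin n → ℝ, ∑ j, ven (fun i => Z i j) ^ 2 = fro Z ^ 2 := by
    intro Z
    rw [fro_sq, Finset.sum_comm]
    exact Finset.sum_congr rfl fun j _ => ven_sq _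
  have hT := tn_nonneg h M C
  have t1 : tn Y M C = bM Y X X + fro X ^ 2 * (bM Y M M / fro M ^ 2) := by rw [hX]; rfl
  calc bM Y (rm M) (rm M)
      ≤ ∑ j, (3 * bY Y (fun i => rm C i j) (fun i => rm C i j) +
        3 * (2 * bY Y (fun i => X i j) (fun i => X i j) +
        2 * (bM Y M M / fro M ^ 2 * ven (fun i => X i j) ^ 2)) +
        3 * (ven (fun i => C i j) ^ 2 / fro C ^ 2 * (2 * tn Y M C))) :=
        Finset.sum_le_sum fun j _ => (hcol j).trans (by have := hq j; linarith)
    _ = 3 * bM Y (rm C) (rm C) + 3 * (2 * bM Y X X + 2 * (bM Y M M / fro M ^ 2 * fro X ^ 2)) +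
        3 * (fro C ^ 2 / fro C ^ 2 * (2 * tn Y M C)) := by
        have key : ∀ (f g u v : Fin n → ℝ) (K c T : ℝ),
            ∑ j, (3 * f j + 3 * (2 * g j + 2 * (K * v j)) + 3 * (u j / c * T)) =
            3 * ∑ j, f j + 3 * (2 * ∑ j, g j + 2 * (K * ∑ j, v j)) + 3 * ((∑ j, u j) / c * T) := by
          intro f g u v K c T
          simp only [Finset.mul_sum, Finset.sum_div, Finset.sum_mul, ← Finset.sum_add_distrib]
        have e7 := s1 C
        have e8 := s1 X
        rw [← e8]
        nth_rewrite 2 [← e7]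
        exact key _ _ _ _ _ _ _
    _ = _ := by
        rw [div_self (by positivity), t1]
        ring

end alg

end Vale.Agent.P146.H571
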