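import Vale.Agent.P146.H571.PerpA

/-!
Plan R2, row F2, the transversal part: inequalities for positive semidefinite matrices.
-/

open MeasureTheory ProbabilityTheory Finset Matrix

namespace Vale.Agent.P146.H571

open Vale.Agent.P146.H191
open Vale.Agent.P146.H350 (mv)
open Vale.Agent.P146.H332 (Psd ip)
open Vale.Agent.P146.H522 (nf)
open Vale.Agent.P146.H364 (bf bf_eq psd_of_bf psd_bf tq_le bf_le_nf rem)

set_option linter.unusedSectionVars false

section psd

variable {n : ℕ} {Y C : Fin n → Fin n → ℝ}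

lemma fro_nf (C : Fin n → Fin n → ℝ) : nf (Matrix.of C) = fro C := rfl

lemma psd_Pf (h : Pf Y) : Psd (Matrix.of Y) := by
  refine psd_of_bf (by ext i j; exact h.sy j i) fun v => ?_
  rw [bf_eq]
  refine (h.ps v).trans (le_of_eq ?_)
  exact Finset.sum_congr rfl fun i _ => Finset.sum_congr rfl fun j _ => by
    rw [Matrix.of_apply]; ring

/-- the square of a column -/
lemma col_le (hC : Pf C) {b : Fin n} (h1 : C b b = 1) : ∑ i, C i b ^ 2 ≤ fro C := by
  obtain ⟨v, hv⟩ : ∃ v : Fin n → ℝ, v = fun i => C i b := ⟨_, rfl⟩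
  have e1 : bY C (fun i => if i = b then (1 : ℝ) else 0) v = ∑ i, v i ^ 2 := by
    unfold bY
    simp only [ite_mul, one_mul, zero_mul, mul_ite, mul_zero]
    rw [Finset.sum_comm]
    simp only [Finset.sum_ite_eq', Finset.mem_univ, if_true]
    refine Finset.sum_congr rfl fun l _ => ?_
    rw [hv, hC.sy b l]
    ring
  have e2 : bY C (fun i => if i = b then (1 : ℝ) else 0) (fun i => if i = b then (1 : ℝ) else 0) =
      1 := by
    unfold bY
    simp [h1]
  have h2 := hC.cs (fun i => if i = b then (1 : ℝ) else 0) v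
  have h3 : bY C v v ≤ fro C * ∑ i, v i ^ 2 := by
    have h4 := (le_abs_self _).trans (cs_fro C fun i j => v i * v j)
    rw [fro_outer, ← pow_two, ven_sq] at h4
    exact h4
  have h5 : (∑ i, v i ^ 2) ^ 2 ≤ bY C v v := by
    rw [e1] at h2
    have h6 := pow_le_pow_left₀ (abs_nonneg _) h2 2
    rw [sq_abs, mul_pow, hC.vn_sq, hC.vn_sq, e2, one_mul] at h6
    exact h6
  have h0 : 0 ≤ ∑ i, v i ^ 2 := Finset.sum_nonneg fun i _ => sq_nonneg _
  have h7 : ∑ i, C i b ^ 2 = ∑ i, v i ^ 2 := by rw [hv]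
  rw [h7]
  rcases h0.eq_or_lt with h8 | h8
  · rw [← h8]
    exact fro_nonneg C
  · have h9 : (∑ i, v i ^ 2) * ∑ i, v i ^ 2 ≤ fro C * ∑ i, v i ^ 2 := by nlinarith
    exact le_of_mul_le_mul_right h9 h8

/-- `√n ≤ |C|` if the diagonal is one -/
lemma sqrt_le_fro (h1 : ∀ b, C b b = 1) : √n ≤ fro C := by
  unfold fro
  refine Real.sqrt_le_sqrt ?_
  calc (n : ℝ) = ∑ _i : Fin n, (1 : ℝ) := by simp
    _ ≤ ∑ i, ∑ j, C i j ^ 2 := by
      refine Finset.sum_le_sum fun i _ => ?_
      have h2 : C i i ^ 2 ≤ ∑ j, C i j ^ 2 :=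
        Finset.single_le_sum (f := fun j => C i j ^ 2) (fun j _ => sq_nonneg _) (Finset.mem_univ i)
      rw [h1 i] at h2
      linarith

lemma rem_of (C : Fin n → Fin n → ℝ) : rem (Matrix.of C) = Matrix.of (rm C) := by
  ext i j
  unfold rem rm
  rw [Matrix.sub_apply, Matrix.smul_apply, Matrix.mul_apply, fro_nf, smul_eq_mul]
  simp only [Matrix.of_apply]
  ring

lemma ip_mono {Y A B : Matrix (Fin n) (Fin n) ℝ} (hY : Psd Y) (h : Psd (B - A)) :
    ip Y A ≤ ip Y B := by
  have h1 := hY.sum_mul_nonneg h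
  have e : ∑ i, ∑ j, Y i j * (B - A) i j = ip Y B - ip Y A := by
    unfold ip
    simp only [Matrix.sub_apply, ← Finset.sum_sub_distrib]
    exact Finset.sum_congr rfl fun i _ => Finset.sum_congr rfl fun j _ => by ring
  rw [e] at h1
  linarith

/-- `|A x|² ≤ |A| x'Ax` -/
lemma sq_le_form {A : Matrix (Fin n) (Fin n) ℝ} (hA : Psd A) (x : Fin n → ℝ) :
    (A *ᵥ x) ⬝ᵥ (A *ᵥ x) ≤ nf A * bf A x x := by
  have h := tq_le hA (T := 1) (by rw [Matrix.transpose_one]) (μ := nf A)
    (fun y => by rw [Matrix.one_mulVec]; exact bf_le_nf A y) x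
  rwa [Matrix.one_mulVec] at h

/-- `C - C²/|C|` is positive semidefinite -/
lemma psd_rem {A : Matrix (Fin n) (Fin n) ℝ} (hA : Psd A) (h0 : 0 < nf A) : Psd (rem A) := by
  refine psd_of_bf ?_ fun v => ?_
  · unfold rem
    rw [Matrix.transpose_sub, Matrix.transpose_smul, Matrix.transpose_mul, hA.1]
  · have e : bf (rem A) v v = bf A v v - 1 / nf A * ((A *ᵥ v) ⬝ᵥ (A *ᵥ v)) := by
      unfold bf rem
      rw [Matrix.sub_mulVec, dotProduct_sub, Matrix.smul_mulVec, dotProduct_smul, smul_eq_mul,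
        ← Matrix.mulVec_mulVec, Matrix.dotProduct_mulVec v A (A *ᵥ v), ← Matrix.mulVec_transpose,
        hA.1]
    rw [e]
    have h1 := sq_le_form hA v
    have h2 : 1 / nf A * ((A *ᵥ v) ⬝ᵥ (A *ᵥ v)) ≤ 1 / nf A * (nf A * bf A v v) :=
      mul_le_mul_of_nonneg_left h1 (by positivity)
    have h3 : 1 / nf A * (nf A * bf A v v) = bf A v v := by field_simp
    linarith

/-- `tr (Y A²) ≤ |A| tr (Y A)` -/
lemma ip_sq_le {Y A : Matrix (Fin n) (Fin n) ℝ} (hY : Psd Y) (hA : Psd A) :
    ip Y (A * A) ≤ nf A * ip Y A := by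
  have h1 : Psd (nf A • A - A * A) := by
    refine psd_of_bf ?_ fun v => ?_
    · rw [Matrix.transpose_sub, Matrix.transpose_smul, Matrix.transpose_mul, hA.1]
    · have e : bf (nf A • A - A * A) v v = nf A * bf A v v - (A *ᵥ v) ⬝ᵥ (A *ᵥ v) := by
        unfold bf
        rw [Matrix.sub_mulVec, dotProduct_sub, Matrix.smul_mulVec, dotProduct_smul, smul_eq_mul,
          ← Matrix.mulVec_mulVec, Matrix.dotProduct_mulVec v A (A *ᵥ v),
          ← Matrix.mulVec_transpose, hA.1]
      rw [e]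
      linarith [sq_le_form hA v]
  have h2 := ip_mono hY h1
  have e : ip Y (nf A • A) = nf A * ip Y A := by
    unfold ip
    simp only [Matrix.smul_apply, smul_eq_mul, Finset.mul_sum]
    exact Finset.sum_congr rfl fun i _ => Finset.sum_congr rfl fun j _ => by ring
  rw [e] at h2
  exact h2

/-- **The number of the transversal part.** -/
theorem bM_rm_le (h : Pf Y) (hC : Pf C) (hc : 0 < fro C) :
    bM Y (rm C) (rm C) ≤ fro (rm C) * ∑ i, ∑ j, Y i j * C i j := by
  have hY := psd_Pf h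
  have hA := psd_Pf hC
  have hR := psd_rem hA hc
  have e1 : bM Y (rm C) (rm C) = ip (Matrix.of Y) (rem (Matrix.of C) * rem (Matrix.of C)) := by
    unfold bM bY ip
    rw [Finset.sum_comm]
    refine Finset.sum_congr rfl fun i _ => ?_
    rw [Finset.sum_comm]
    refine Finset.sum_congr rfl fun l _ => ?_
    rw [Matrix.mul_apply, Finset.mul_sum]
    refine Finset.sum_congr rfl fun j _ => ?_
    have h1 : rem (Matrix.of C) j l = rem (Matrix.of C) l j := congrFun (congrFun hR.1 l) j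
    rw [h1, rem_of]
    rfl
  have h2 := ip_sq_le hY hR
  have h3 : ip (Matrix.of Y) (rem (Matrix.of C)) ≤ ip (Matrix.of Y) (Matrix.of C) := by
    refine ip_mono hY ?_
    refine psd_of_bf ?_ fun v => ?_
    · rw [Matrix.transpose_sub, hA.1, hR.1]
    · have e : bf (Matrix.of C - rem (Matrix.of C)) v v =
          1 / nf (Matrix.of C) * ((Matrix.of C *ᵥ v) ⬝ᵥ (Matrix.of C *ᵥ v)) := by
        unfold bf rem
        rw [sub_sub_cancel, Matrix.smul_mulVec, dotProduct_smul, smul_eq_mul,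
          ← Matrix.mulVec_mulVec, Matrix.dotProduct_mulVec v _ (Matrix.of C *ᵥ v),
          ← Matrix.mulVec_transpose, hA.1]
      rw [e]
      exact mul_nonneg (by rw [fro_nf]; positivity) (H364.dot_self_nonneg _)
  rw [e1]
  refine h2.trans ?_
  have e4 : nf (rem (Matrix.of C)) = fro (rm C) := by rw [rem_of]; rfl
  rw [e4]
  exact mul_le_mul_of_nonneg_left h3 (fro_nonneg _)

end psd

end Vale.Agent.P146.H571
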