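import Vale.Agent.P146.H571.PerpB

/-!
Plan R2, row F2, the transversal part: one row under a law with a general density.
-/

open MeasureTheory ProbabilityTheory Finset

namespace Vale.Agent.P146.H571

open Vale.Agent.P157.Lv Vale.Agent.P146.H425 Vale.Agent.P146.H325 Vale.Agent.P146.H332
  Vale.Agent.P146.H712 Vale.Agent.P146.R1 Vale.Agent.P146.R1C Vale.Agent.P146.H706
  Vale.Agent.P146.R1S Vale.Agent.P146.H191
open Vale.Agent.P146.H350 (mv Nv)

set_option linter.unusedSectionVars false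

variable {n : ℕ} {k x : ℝ} {S : CS n k x} {s : ℝ} {φ : (K4 (Pair n) → ℝ) → ℝ}
  {ψ' : K4 (Pair n) → (K4 (Pair n) → ℝ) → ℝ} {a : Fin 4 → ℝ} {b : Fin n}

/-- The frozen matrix of a row. -/
structure FM (b : Fin n) (M : MF n) : Prop where
  eg : ∀ i l, EG fun w => M w i l
  ind : ∀ i l, Ind (lf (row b)) fun w => M w i l
  sy : ∀ w i l, M w i l = M w l i
  col : ∀ w i, M w i b = 0
  one : ∀ w, 1 ≤ fro (M w)

lemma Im_mono' (hφ : ∀ w, 0 ≤ φ w) (h : EG φ) {f g : (K4 (Pair n) → ℝ) → ℝ} (hf : EG f)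
    (hg : EG g) (hfg : ∀ w, f w ≤ g w) : Im φ f ≤ Im φ g :=
  integral_mono (h.mul hf).integrable (h.mul hg).integrable fun w =>
    mul_le_mul_of_nonneg_left (hfg w) (hφ w)

lemma FM.inv {M : MF n} (h : FM b M) : EG fun w => (fro (M w))⁻¹ := by
  refine EG.of_bdd (C := 1) (eg_fro h.eg).meas.inv fun w => ?_
  have h1 := h.one w
  rw [abs_of_nonneg (by positivity)]
  exact inv_le_one_of_one_le₀ h1

lemma eg_rm {M : MF n} (he : ∀ i l, EG fun w => M w i l) (hi : EG fun w => (fro (M w))⁻¹)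
    (i l : Fin n) : EG fun w => rm (M w) i l := by
  unfold rm
  simp only [div_eq_mul_inv]
  exact (he i l).sub ((EG.sum _ fun j _ => (he i j).mul (he j l)).mul hi)

lemma eg_bY {Y : MF n} {f g : (K4 (Pair n) → ℝ) → Fin n → ℝ} (hY : ∀ i l, EG fun w => Y w i l)
    (hf : ∀ i, EG fun w => f w i) (hg : ∀ i, EG fun w => g w i) :
    EG fun w => bY (Y w) (f w) (g w) :=
  EG.sum _ fun i _ => EG.sum _ fun l _ => (hY i l).mul ((hf i).mul (hg l))

lemma eg_bM {Y X Z : MF n} (hY : ∀ i l, EG fun w => Y w i l) (hX : ∀ i l, EG fun w => X w i l)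
    (hZ : ∀ i l, EG fun w => Z w i l) : EG fun w => bM (Y w) (X w) (Z w) :=
  EG.sum _ fun j _ => eg_bY hY (fun i => hX i j) fun i => hZ i j

lemma eg_mv {M : MF n} {f : (K4 (Pair n) → ℝ) → Fin n → ℝ} (hM : ∀ i l, EG fun w => M w i l)
    (hf : ∀ i, EG fun w => f w i) (i : Fin n) : EG fun w => mv (M w) (f w) i :=
  EG.sum _ fun j _ => (hM i j).mul (hf j)

lemma eg_qv {M : MF n} {f : (K4 (Pair n) → ℝ) → Fin n → ℝ} (hM : ∀ i l, EG fun w => M w i l)
    (hi : EG fun w => (fro (M w))⁻¹) (hf : ∀ i, EG fun w => f w i) (i : Fin n) :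
    EG fun w => qv (M w) (f w) i := by
  unfold qv
  simp only [div_eq_mul_inv]
  exact (hf i).sub ((eg_mv hM hf i).mul hi)

/-- the frozen remainder -/
lemma FM.frz_rm {M : MF n} (h : FM b M) (β : ℝ) : Frz b fun w i l => rm (M w) i l / β where
  eg i l := by
    simp only [div_eq_mul_inv]
    have := eg_rm h.eg h.inv i l
    exact this.mul (EG.const _)
  fr i l := by
    refine Fr.of_ind fun z w => ?_
    have e : ∀ i l, M (sw (lf (row b)) z w) i l = M z i l := fun i l => h.ind i l z w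
    have e1 : M (sw (lf (row b)) z w) = M z := funext fun i => funext fun l => e i l
    simp only [e1]
  sy w i l := by
    unfold rm
    rw [h.sy w i l]
    congr 3
    exact Finset.sum_congr rfl fun j _ => by rw [h.sy w i j, h.sy w j l]; ring

lemma FM.rm_col {M : MF n} (h : FM b M) (w : K4 (Pair n) → ℝ) (i : Fin n) :
    rm (M w) i b = 0 := by
  unfold rm
  simp only [h.col, mul_zero, Finset.sum_const_zero, zero_div, sub_zero]

/-- the projection of the linear part -/
lemma qv_Ly {M : MF n} (β : ℝ) (w : K4 (Pair n) → ℝ) (i : Fin n) :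
    qv (M w) (fun i => Ly a b (fun w i l => M w i l / β) i w) i =
      Ly a b (fun w i l => rm (M w) i l / β) i w := by
  unfold qv mv Ly rm
  have e1 : ∑ j, M w i j * ∑ e ∈ row b, M w j (oth b e) / β * H712.lp a w e =
      ∑ e ∈ row b, (∑ j, M w i j * M w j (oth b e)) / β * H712.lp a w e := by
    simp only [Finset.mul_sum]
    rw [Finset.sum_comm]
    refine Finset.sum_congr rfl fun e _ => ?_
    rw [Finset.sum_div, Finset.sum_mul]
    exact Finset.sum_congr rfl fun j _ => by ring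
  rw [e1, Finset.sum_div, ← Finset.sum_sub_distrib]
  exact Finset.sum_congr rfl fun e _ => by ring

/-- a quadratic form of the row -/
theorem quad_le (h : Den φ ψ') (hφ : ∀ w, 0 ≤ φ w) {Y L : MF n} (hY : Frz b Y)
    (hYp : ∀ w, Pf (Y w)) (hL : Frz b L) (hLb : ∀ w i, L w i b = 0) {V0 : ℝ}
    (hV : ∀ w, ven (dv a ψ' b w) ^ 2 ≤ V0) :
    Im φ (fun w => bY (Y w) (fun i => Ly a b L i w) fun i => Ly a b L i w) ≤
      (2 * vr a + V0) * Im φ (fun w => bM (Y w) (L w) (L w)) := by
  have hq := quad_ibp (a := a) h hY hL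
  have eL : ∀ i, EG (Ly a b L i) := fun i => eg_Ly hL.eg i
  have eV : ∀ i, EG (LV a b ψ' L i) := fun i => eg_LV h hL.eg i
  have g3 := eg_qY hY.eg eL eL
  have g4 := eg_qY hY.eg eL eV
  have g5 := eg_qY hY.eg eV eV
  have gT : EG fun w => bM (Y w) (L w) (L w) := eg_bM hY.eg hL.eg hL.eg
  have e2 : ∀ w, ∑ i, ∑ l, Y w i l * ∑ e ∈ row b, L w l (oth b e) * L w i (oth b e) =
      bM (Y w) (L w) (L w) := by
    intro w
    have e3 : ∀ l i, ∑ e ∈ row b, L w l (oth b e) * L w i (oth b e) =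
        ∑ j, L w l j * L w i j := fun l i =>
      sum_row_all b (G := fun j => L w l j * L w i j) (by simp only [hLb, zero_mul])
    simp only [e3]
    unfold bM bY
    calc ∑ i, ∑ l, Y w i l * ∑ j, L w l j * L w i j
        = ∑ i, ∑ l, ∑ j, Y w i l * (L w i j * L w l j) := by
          refine Finset.sum_congr rfl fun i _ => Finset.sum_congr rfl fun l _ => ?_
          rw [Finset.mul_sum]
          exact Finset.sum_congr rfl fun j _ => by ring
      _ = ∑ i, ∑ j, ∑ l, Y w i l * (L w i j * L w l j) :=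
          Finset.sum_congr rfl fun i _ => Finset.sum_comm
      _ = _ := Finset.sum_comm
  simp only [e2] at hq
  -- the cross term
  have hc : Im φ (qY Y (Ly a b L) (LV a b ψ' L)) ≤
      1 / 2 * Im φ (qY Y (Ly a b L) (Ly a b L)) +
        1 / 2 * Im φ (qY Y (LV a b ψ' L) (LV a b ψ' L)) := by
    rw [← Im_const_mul, ← Im_const_mul, ← Im_add h.eg (g3.const_mul _) (g5.const_mul _)]
    refine Im_mono' hφ h.eg g4 ((g3.const_mul _).add (g5.const_mul _)) fun w => ?_
    have h1 := (hYp w).ps fun i => Ly a b L i w - LV a b ψ' L i w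
    have e : ∑ i, ∑ l, Y w i l * ((Ly a b L i w - LV a b ψ' L i w) *
        (Ly a b L l w - LV a b ψ' L l w)) =
        qY Y (Ly a b L) (Ly a b L) w - qY Y (Ly a b L) (LV a b ψ' L) w -
        qY Y (LV a b ψ' L) (Ly a b L) w + qY Y (LV a b ψ' L) (LV a b ψ' L) w := by
      unfold qY
      simp only [← Finset.sum_sub_distrib, ← Finset.sum_add_distrib]
      exact Finset.sum_congr rfl fun i _ => Finset.sum_congr rfl fun l _ => by ring
    rw [e, qY_comm (fun w i l => (hYp w).sy i l) (LV a b ψ' L) (Ly a b L) w] at h1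
    linarith
  have hK : Im φ (qY Y (LV a b ψ' L) (LV a b ψ' L)) ≤
      V0 * Im φ (fun w => bM (Y w) (L w) (L w)) := by
    rw [← Im_const_mul]
    refine Im_mono' hφ h.eg g5 (gT.const_mul _) fun w => ?_
    have e1 : qY Y (LV a b ψ' L) (LV a b ψ' L) w =
        vn (Y w) (fun i => ∑ j, L w i j * dv a ψ' b w j) ^ 2 := by
      rw [(hYp w).vn_sq]
      unfold qY bY LV
      simp only [dv, sum_rw' (fun e => dr a ψ' e w) b]
    rw [e1]
    refine (pow_le_pow_left₀ (vn_nonneg _ _) ((hYp w).vn_mulVec (L w) (dv a ψ' b w)) 2).trans ?_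
    rw [mul_pow, (hYp w).sn_sq, mul_comm]
    exact mul_le_mul_of_nonneg_right (hV w) ((hYp w).bM_nonneg _)
  have e6 : Im φ (fun w => bY (Y w) (fun i => Ly a b L i w) fun i => Ly a b L i w) =
      Im φ (qY Y (Ly a b L) (Ly a b L)) := rfl
  rw [e6]
  linarith

end Vale.Agent.P146.H571
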