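import Vale.Agent.P146.H571.PerpC

/-!
Plan R2, row F2, the transversal part: the number of one row.
-/

open MeasureTheory ProbabilityTheory Finset

namespace Vale.Agent.P146.H571

open Vale.Agent.P157.Lv Vale.Agent.P146.H425 Vale.Agent.P146.H325 Vale.Agent.P146.H332
  Vale.Agent.P146.H712 Vale.Agent.P146.R1 Vale.Agent.P146.R1C Vale.Agent.P146.H706
  Vale.Agent.P146.R1S Vale.Agent.P146.H191
open Vale.Agent.P146.H350 (mv Nv)

set_option linter.unusedSectionVars false

variable {n : ℕ} {k x : ℝ} {S : CS n k x} {s : ℝ} {φ : (K4 (Pair n) → ℝ) → ℝ}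
  {ψ' : K4 (Pair n) → (K4 (Pair n) → ℝ) → ℝ} {a : Fin 4 → ℝ} {b : Fin n}

lemma pf_A (S : CS n k x) (s : ℝ) (z : Pair n → ℝ) : Pf (S.A s z) where
  sy i l := S.A_comm s z i l
  ps v := by
    refine (S.qf_A_nonneg s z v).trans (le_of_eq ?_)
    unfold qf
    exact Finset.sum_congr rfl fun i _ => Finset.sum_congr rfl fun l _ => by ring

lemma fro_A_ge (hn : 1 ≤ n) (S : CS n k x) (s : ℝ) (z : Pair n → ℝ) :
    √n ≤ fro (S.A s z) ∧ 1 ≤ √(n : ℝ) ∧ 0 < fro (S.A s z) := by
  have h1 := sqrt_le_fro (C := S.A s z) fun b => S.A_self s z b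
  have h2 : (1 : ℝ) ≤ √(n : ℝ) := by
    rw [Real.one_le_sqrt]
    exact_mod_cast hn
  exact ⟨h1, h2, by linarith⟩

/-- `C` at the position -/
noncomputable def Cw (S : CS n k x) (s : ℝ) (a : Fin 4 → ℝ) : MF n := fun w i j =>
  S.A s (H712.lp a w) i j

lemma eg_Cw (i l : Fin n) : EG fun w => Cw S s a w i l := eg_lp a (S.eg_A s i l)

lemma pf_Cw (w : K4 (Pair n) → ℝ) : Pf (Cw S s a w) := pf_A S s _

lemma Cw_pos (hn : 1 ≤ n) (w : K4 (Pair n) → ℝ) : 0 < fro (Cw S s a w) :=
  (fro_A_ge hn S s (H712.lp a w)).2.2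

lemma eg_Cinv (hn : 1 ≤ n) : EG fun w => (fro (Cw S s a w))⁻¹ := by
  refine EG.of_bdd (C := 1) (eg_fro eg_Cw).meas.inv fun w => ?_
  obtain ⟨h1, h2, h3⟩ := fro_A_ge hn S s (H712.lp a w)
  have h4 : 1 ≤ fro (Cw S s a w) := h2.trans h1
  rw [abs_of_nonneg (by positivity)]
  exact inv_le_one_of_one_le₀ h4

lemma eg_tn {Y M C : MF n} (hY : ∀ i l, EG fun w => Y w i l) (hM : ∀ i l, EG fun w => M w i l)
    (hC : ∀ i l, EG fun w => C w i l) (hi : EG fun w => (fro (M w))⁻¹) :
    EG fun w => tn (Y w) (M w) (C w) := by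
  have e : ∀ w, tn (Y w) (M w) (C w) =
      bM (Y w) (fun i j => C w i j - M w i j) (fun i j => C w i j - M w i j) +
      fro (fun i j => C w i j - M w i j) ^ 2 *
        (bM (Y w) (M w) (M w) * ((fro (M w))⁻¹ * (fro (M w))⁻¹)) := by
    intro w
    unfold tn
    congr 2
    rw [div_eq_mul_inv, pow_two, mul_inv]
  rw [show (fun w => tn (Y w) (M w) (C w)) = _ from funext e]
  have hX : ∀ i l, EG fun w => C w i l - M w i l := fun i l => (hC i l).sub (hM i l)
  exact (eg_bM (X := fun w i j => C w i j - M w i j) (Z := fun w i j => C w i j - M w i j) hY hX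
    hX).add (((eg_fro (X := fun w i j => C w i j - M w i j) hX).pow 2).mul
    ((eg_bM hY hM hM).mul (hi.mul hi)))

/-- **The transversal part of the rest, one row.** -/
theorem perp_row (h : Den φ ψ') (hφ : ∀ w, 0 ≤ φ w) (hn : 1 ≤ n) {Y M : MF n} (hY : Frz b Y)
    (hYp : ∀ w, Pf (Y w)) (hM : FM b M) {β V0 : ℝ}
    (hV : ∀ w, ven (dv a ψ' b w) ^ 2 ≤ V0) :
    Im φ (fun w => bY (Y w) (qv (M w) (Nv S s a β b M w)) (qv (M w) (Nv S s a β b M w))) ≤
      6 * Im φ (fun w => bY (Y w) (fun i => rm (Cw S s a w) i b) fun i => rm (Cw S s a w) i b) +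
      6 * Im φ (fun w => Y w b b) +
      12 / √n * Im φ (fun w => tn (Y w) (M w) (Cw S s a w)) +
      2 * (k / β) ^ 2 * (2 * vr a + V0) *
        (3 * Im φ (fun w => bM (Y w) (rm (Cw S s a w)) (rm (Cw S s a w))) +
          12 * Im φ (fun w => tn (Y w) (M w) (Cw S s a w))) := by
  obtain ⟨C, hC⟩ : ∃ C : MF n, C = Cw S s a := ⟨_, rfl⟩
  rw [← hC]
  have eC : ∀ i l, EG fun w => C w i l := by rw [hC]; exact eg_Cw
  have eCi : EG fun w => (fro (C w))⁻¹ := by rw [hC]; exact eg_Cinv hn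
  have eR : ∀ i l, EG fun w => rm (C w) i l := fun i l => eg_rm eC eCi i l
  have eU : ∀ i, EG fun w => Uv S s a b w i := fun i => eg_Uv b i
  have eQU : ∀ i, EG fun w => qv (M w) (Uv S s a b w) i := fun i => eg_qv hM.eg hM.inv eU i
  have hLR := hM.frz_rm β
  have eL : ∀ i, EG (Ly a b (fun w i l => rm (M w) i l / β) i) := fun i => eg_Ly hLR.eg i
  have eT : EG fun w => tn (Y w) (M w) (C w) := eg_tn hY.eg hM.eg eC hM.inv
  have eN : ∀ i, EG fun w => Nv S s a β b M w i := fun i =>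
    (eg_lp a (eg_Uz S s b i)).sub ((eg_Ly (L := fun w i l => M w i l / β) (fun i l => by
      simp only [div_eq_mul_inv]; exact (hM.eg i l).mul (EG.const _)) i).const_mul _)
  have eQN : ∀ i, EG fun w => qv (M w) (Nv S s a β b M w) i := fun i =>
    eg_qv hM.eg hM.inv eN i
  -- the split
  have hsp : ∀ w, bY (Y w) (qv (M w) (Nv S s a β b M w)) (qv (M w) (Nv S s a β b M w)) ≤
      2 * bY (Y w) (qv (M w) (Uv S s a b w)) (qv (M w) (Uv S s a b w)) +
      2 * (k ^ 2 * bY (Y w) (fun i => Ly a b (fun w i l => rm (M w) i l / β) i w)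
        fun i => Ly a b (fun w i l => rm (M w) i l / β) i w) := by
    intro w
    have e : qv (M w) (Nv S s a β b M w) = fun i => qv (M w) (Uv S s a b w) i -
        k * Ly a b (fun w i l => rm (M w) i l / β) i w := by
      funext i
      have e1 : Nv S s a β b M w = fun i => Uv S s a b w i -
          k * Ly a b (fun w i l => M w i l / β) i w := rfl
      rw [e1, qv_sub (M w) (Uv S s a b w) (fun i => k * Ly a b (fun w i l => M w i l / β) i w) i]
      congr 1
      rw [← qv_Ly β w i]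
      unfold qv mv
      rw [mul_sub, mul_div_assoc', Finset.mul_sum]
      congr 2
      exact Finset.sum_congr rfl fun j _ => by ring
    rw [e]
    refine (bY_sub_le (hYp w) _ _).trans (le_of_eq ?_)
    rw [bY_smul]
  have hUU : ∀ w, bY (Y w) (qv (M w) (Uv S s a b w)) (qv (M w) (Uv S s a b w)) ≤
      3 * bY (Y w) (fun i => rm (C w) i b) (fun i => rm (C w) i b) + 3 * Y w b b +
        6 / √n * tn (Y w) (M w) (C w) := by
    intro w
    obtain ⟨h1, h2, h3⟩ := fro_A_ge hn S s (H712.lp a w)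
    have hc : 0 < fro (C w) := by rw [hC]; exact h3
    have hm : 0 < fro (M w) := lt_of_lt_of_le one_pos (hM.one w)
    have hpu := perp_U (hYp w) (M := M w) (C := C w) (b := b) (hM.col w)
      (by rw [hC]; exact S.A_self s _ b) hm hc
    have e1 : (fun i => if i = b then 0 else C w i b) = Uv S s a b w := by
      funext i
      rw [hC]
      rfl
    rw [e1] at hpu
    refine hpu.trans ?_
    have h4 : (∑ i, C w i b ^ 2) / fro (C w) ^ 2 ≤ 1 / √n := by
      have h5 := col_le (C := C w) (b := b) (by rw [hC]; exact pf_Cw w)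
        (by rw [hC]; exact S.A_self s _ b)
      have h6 : √n ≤ fro (C w) := by rw [hC]; exact h1
      calc (∑ i, C w i b ^ 2) / fro (C w) ^ 2 ≤ fro (C w) / fro (C w) ^ 2 := by gcongr
        _ = 1 / fro (C w) := by rw [pow_two]; field_simp
        _ ≤ 1 / √n := one_div_le_one_div_of_le (by linarith) h6
    have h7 := tn_nonneg (hYp w) (M w) (C w)
    have h8 : 6 * ((∑ i, C w i b ^ 2) / fro (C w) ^ 2) * tn (Y w) (M w) (C w) ≤
        6 * (1 / √n) * tn (Y w) (M w) (C w) := by gcongr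
    have e9 : 6 * (1 / √n) * tn (Y w) (M w) (C w) = 6 / √n * tn (Y w) (M w) (C w) := by ring
    linarith
  have hq := quad_le (a := a) h hφ hY hYp hLR (fun w i => by
    show rm (M w) i b / β = 0
    rw [hM.rm_col w i, zero_div]) hV
  have hMM : ∀ w, bM (Y w) (fun i l => rm (M w) i l / β) (fun i l => rm (M w) i l / β) ≤
      (1 / β) ^ 2 * (3 * bM (Y w) (rm (C w)) (rm (C w)) + 12 * tn (Y w) (M w) (C w)) := by
    intro w
    have hc : 0 < fro (C w) := by rw [hC]; exact Cw_pos hn w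
    have hm : 0 < fro (M w) := lt_of_lt_of_le one_pos (hM.one w)
    have h1 := perp_M (hYp w) (M := M w) (C := C w) hm hc
    have e : bM (Y w) (fun i l => rm (M w) i l / β) (fun i l => rm (M w) i l / β) =
        (1 / β) ^ 2 * bM (Y w) (rm (M w)) (rm (M w)) := by
      unfold bM
      rw [Finset.mul_sum]
      refine Finset.sum_congr rfl fun j _ => ?_
      rw [← bY_smul]
      congr 1 <;> exact funext fun i => by ring
    rw [e]
    exact mul_le_mul_of_nonneg_left h1 (sq_nonneg _)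
  have g0 : EG fun w => bY (Y w) (qv (M w) (Nv S s a β b M w)) (qv (M w) (Nv S s a β b M w)) :=
    eg_bY hY.eg eQN eQN
  have g1 : EG fun w => bY (Y w) (qv (M w) (Uv S s a b w)) (qv (M w) (Uv S s a b w)) :=
    eg_bY hY.eg eQU eQU
  have g2 : EG fun w => bY (Y w) (fun i => Ly a b (fun w i l => rm (M w) i l / β) i w)
      fun i => Ly a b (fun w i l => rm (M w) i l / β) i w := eg_bY hY.eg eL eL
  have g3 : EG fun w => bY (Y w) (fun i => rm (C w) i b) fun i => rm (C w) i b :=
    eg_bY hY.eg (fun i => eR i b) fun i => eR i b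
  have g4 : EG fun w => Y w b b := hY.eg b b
  have g5 : EG fun w => bM (Y w) (rm (C w)) (rm (C w)) := eg_bM hY.eg eR eR
  have g6 : EG fun w => bM (Y w) (fun i l => rm (M w) i l / β) (fun i l => rm (M w) i l / β) :=
    eg_bM (X := fun w i l => rm (M w) i l / β) (Z := fun w i l => rm (M w) i l / β) hY.eg hLR.eg
      hLR.eg
  have i1 : Im φ (fun w => bY (Y w) (qv (M w) (Nv S s a β b M w))
      (qv (M w) (Nv S s a β b M w))) ≤
      2 * Im φ (fun w => bY (Y w) (qv (M w) (Uv S s a b w)) (qv (M w) (Uv S s a b w))) +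
      2 * (k ^ 2 * Im φ (fun w => bY (Y w) (fun i => Ly a b (fun w i l => rm (M w) i l / β) i w)
        fun i => Ly a b (fun w i l => rm (M w) i l / β) i w)) := by
    rw [← Im_const_mul (k ^ 2), ← Im_const_mul, ← Im_const_mul,
      ← Im_add h.eg (g1.const_mul _) ((g2.const_mul _).const_mul _)]
    exact Im_mono' hφ h.eg g0 ((g1.const_mul _).add ((g2.const_mul _).const_mul _)) hsp
  have i2 : Im φ (fun w => bY (Y w) (qv (M w) (Uv S s a b w)) (qv (M w) (Uv S s a b w))) ≤
      3 * Im φ (fun w => bY (Y w) (fun i => rm (C w) i b) fun i => rm (C w) i b) +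
      3 * Im φ (fun w => Y w b b) + 6 / √n * Im φ (fun w => tn (Y w) (M w) (C w)) := by
    rw [← Im_const_mul, ← Im_const_mul, ← Im_const_mul,
      ← Im_add h.eg (g3.const_mul _) (g4.const_mul _),
      ← Im_add h.eg ((g3.const_mul _).add (g4.const_mul _)) (eT.const_mul _)]
    exact Im_mono' hφ h.eg g1 (((g3.const_mul _).add (g4.const_mul _)).add (eT.const_mul _)) hUU
  have i3 : Im φ (fun w => bM (Y w) (fun i l => rm (M w) i l / β)
      (fun i l => rm (M w) i l / β)) ≤
      (1 / β) ^ 2 * (3 * Im φ (fun w => bM (Y w) (rm (C w)) (rm (C w))) +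
        12 * Im φ (fun w => tn (Y w) (M w) (C w))) := by
    rw [← Im_const_mul, ← Im_const_mul 12, ← Im_add h.eg (g5.const_mul _) (eT.const_mul _),
      ← Im_const_mul]
    exact Im_mono' hφ h.eg g6 (((g5.const_mul _).add (eT.const_mul _)).const_mul _) hMM
  have hV0 : 0 ≤ V0 := (sq_nonneg _).trans (hV 0)
  have hv : 0 ≤ 2 * vr a + V0 := by
    have := vr_nonneg a
    linarith
  have i4 := hq.trans (mul_le_mul_of_nonneg_left i3 hv)
  have i5 := mul_le_mul_of_nonneg_left i4 (sq_nonneg k)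
  have e7 : 2 * (k / β) ^ 2 * (2 * vr a + V0) *
        (3 * Im φ (fun w => bM (Y w) (rm (C w)) (rm (C w))) +
          12 * Im φ (fun w => tn (Y w) (M w) (C w))) =
      2 * (k ^ 2 * ((2 * vr a + V0) * ((1 / β) ^ 2 *
        (3 * Im φ (fun w => bM (Y w) (rm (C w)) (rm (C w))) +
          12 * Im φ (fun w => tn (Y w) (M w) (C w)))))) := by
    rw [div_pow, div_pow, one_pow]
    ring
  rw [e7]
  have e8 : 12 / √n * Im φ (fun w => tn (Y w) (M w) (C w)) =
      2 * (6 / √n * Im φ (fun w => tn (Y w) (M w) (C w))) := by ring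
  rw [e8]
  linarith

end Vale.Agent.P146.H571
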