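import Vale.Agent.P146.H571.PerpB
import Vale.Agent.P146.H508.DeepCS

/-!
Plan R2, row F2, the transversal part: the touch of the deep weight, with the conditional mean
before the norm.
-/

open MeasureTheory ProbabilityTheory

namespace Vale.Agent.P146.H571

open Vale.Agent.P157.Lv Vale.Agent.P146.H712 Vale.Agent.P146.H191
open Vale.Agent.P146.H332 (Psd ip)
open Vale.Agent.P146.H522 (nf)
open Vale.Agent.P146.H364 (bf bf_eq psd_of_bf psd_bf rem)

set_option linter.unusedSectionVars false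

section form

variable {n : ℕ} {A B C : Fin n → Fin n → ℝ}

lemma pf_of_psd (h : Psd (Matrix.of A)) : Pf A where
  sy i l := congrFun (congrFun h.1 l) i
  ps v := by
    have h1 := psd_bf h v
    rw [bf_eq] at h1
    refine h1.trans (le_of_eq ?_)
    exact Finset.sum_congr rfl fun i _ => Finset.sum_congr rfl fun j _ => by
      rw [Matrix.of_apply]; ring

lemma pf_rm (hC : Pf C) (hc : 0 < fro C) : Pf (rm C) := by
  refine pf_of_psd ?_
  rw [← rem_of]
  exact psd_rem (psd_Pf hC) hc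

lemma pf_ip (hA : Pf A) (hB : Pf B) : 0 ≤ ∑ i, ∑ l, A i l * B i l :=
  (psd_Pf hA).sum_mul_nonneg (psd_Pf hB)

/-- monotone in the second factor -/
lemma pf_ip_mono {D : Fin n → Fin n → ℝ} (hA : Pf A) (hB : ∀ i l, B i l = B l i)
    (hD : ∀ i l, D i l = D l i) (h : ∀ v, bY B v v ≤ bY D v v) :
    ∑ i, ∑ l, A i l * B i l ≤ ∑ i, ∑ l, A i l * D i l := by
  have h1 : Pf fun i l => D i l - B i l := by
    refine ⟨fun i l => by rw [hB i l, hD i l], fun v => ?_⟩
    have h2 := h v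
    have e : ∑ i, ∑ l, (D i l - B i l) * (v i * v l) = bY D v v - bY B v v := by
      unfold bY
      simp only [← Finset.sum_sub_distrib]
      exact Finset.sum_congr rfl fun i _ => Finset.sum_congr rfl fun l _ => by ring
    rw [e]
    linarith
  have h3 := pf_ip hA h1
  have e : ∑ i, ∑ l, A i l * (D i l - B i l) =
      (∑ i, ∑ l, A i l * D i l) - ∑ i, ∑ l, A i l * B i l := by
    simp only [← Finset.sum_sub_distrib]
    exact Finset.sum_congr rfl fun i _ => Finset.sum_congr rfl fun l _ => by ring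
  rw [e] at h3
  linarith

/-- the square -/
def sqm (C : Fin n → Fin n → ℝ) (i l : Fin n) : ℝ := ∑ j, C i j * C j l

lemma sqm_comm (hC : ∀ i l, C i l = C l i) (i l : Fin n) : sqm C i l = sqm C l i := by
  unfold sqm
  exact Finset.sum_congr rfl fun j _ => by rw [hC i j, hC j l]; ring

/-- `v' C² v = |C v|²` -/
lemma bY_sqm (hC : ∀ i l, C i l = C l i) (v : Fin n → ℝ) :
    bY (sqm C) v v = ∑ j, (∑ i, C j i * v i) ^ 2 := by
  unfold bY sqm
  calc ∑ i, ∑ l, (∑ j, C i j * C j l) * (v i * v l)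
      = ∑ i, ∑ l, ∑ j, (C j i * v i) * (C j l * v l) := by
        refine Finset.sum_congr rfl fun i _ => Finset.sum_congr rfl fun l _ => ?_
        rw [Finset.sum_mul]
        exact Finset.sum_congr rfl fun j _ => by rw [hC i j]; ring
    _ = ∑ i, ∑ j, ∑ l, (C j i * v i) * (C j l * v l) :=
        Finset.sum_congr rfl fun i _ => Finset.sum_comm
    _ = ∑ j, ∑ i, ∑ l, (C j i * v i) * (C j l * v l) := Finset.sum_comm
    _ = _ := by
        refine Finset.sum_congr rfl fun j _ => ?_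
        rw [pow_two, Finset.sum_mul_sum]

lemma pf_sqm (hC : ∀ i l, C i l = C l i) : Pf (sqm C) where
  sy := sqm_comm hC
  ps v := by
    have h := bY_sqm hC v
    unfold bY at h
    rw [h]
    exact Finset.sum_nonneg fun j _ => sq_nonneg _

/-- `|C y|² ≤ |C| y'Cy` -/
lemma sq_le_fro (hC : Pf C) (y : Fin n → ℝ) :
    ∑ j, (∑ i, C j i * y i) ^ 2 ≤ fro C * bY C y y := by
  have h := sq_le_form (psd_Pf hC) y
  have e1 : (Matrix.of C).mulVec y ⬝ᵥ (Matrix.of C).mulVec y = ∑ j, (∑ i, C j i * y i) ^ 2 := by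
    unfold dotProduct Matrix.mulVec dotProduct
    exact Finset.sum_congr rfl fun j _ => by simp only [Matrix.of_apply]; ring
  have e2 : bf (Matrix.of C) y y = bY C y y := by
    rw [bf_eq]
    unfold bY
    exact Finset.sum_congr rfl fun i _ => Finset.sum_congr rfl fun j _ => by
      rw [Matrix.of_apply]; ring
  rw [e1, e2, fro_nf] at h
  exact h

/-- `C - C²/|C| ≤ C` -/
lemma rm_le (hC : Pf C) (hc : 0 < fro C) (v : Fin n → ℝ) : bY (rm C) v v ≤ bY C v v := by
  have e : bY (rm C) v v = bY C v v - 1 / fro C * bY (sqm C) v v := by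
    unfold bY rm sqm
    simp only [Finset.mul_sum, ← Finset.sum_sub_distrib]
    refine Finset.sum_congr rfl fun i _ => Finset.sum_congr rfl fun l _ => ?_
    rw [Finset.sum_mul, Finset.mul_sum, sub_mul, Finset.sum_div, Finset.sum_mul]
    congr 1
    exact Finset.sum_congr rfl fun j _ => by ring
  have h1 : 0 ≤ bY (sqm C) v v := (pf_sqm hC.sy).bY_nonneg v
  rw [e]
  have : 0 ≤ 1 / fro C * bY (sqm C) v v := mul_nonneg (by positivity) h1
  linarith

/-- `(C - C²/|C|)² ≤ C²` -/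
lemma rm_sq_le (hC : Pf C) (hc : 0 < fro C) (v : Fin n → ℝ) :
    bY (sqm (rm C)) v v ≤ bY (sqm C) v v := by
  obtain ⟨y, hy⟩ : ∃ y : Fin n → ℝ, y = fun j => ∑ i, C j i * v i := ⟨_, rfl⟩
  rw [bY_sqm (pf_rm hC hc).sy, bY_sqm hC.sy]
  have e1 : ∀ j, ∑ i, rm C j i * v i = y j - 1 / fro C * ∑ i, C j i * y i := by
    intro j
    rw [hy]
    unfold rm
    have e2 : ∑ i, C j i * ∑ l, C i l * v l = ∑ l, (∑ i, C j i * C i l) * v l := by
      simp only [Finset.mul_sum, Finset.sum_mul]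
      rw [Finset.sum_comm]
      exact Finset.sum_congr rfl fun i _ => Finset.sum_congr rfl fun l _ => by ring
    simp only
    rw [e2, Finset.mul_sum, ← Finset.sum_sub_distrib]
    exact Finset.sum_congr rfl fun i _ => by ring
  simp only [e1]
  have h1 := sq_le_fro hC y
  have e3 : ∑ j, (y j - 1 / fro C * ∑ i, C j i * y i) ^ 2 =
      ∑ j, y j ^ 2 - 2 * (1 / fro C) * bY C y y +
        (1 / fro C) ^ 2 * ∑ j, (∑ i, C j i * y i) ^ 2 := by
    have e4 : bY C y y = ∑ j, y j * ∑ i, C j i * y i := by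
      unfold bY
      refine Finset.sum_congr rfl fun j _ => ?_
      rw [Finset.mul_sum]
      exact Finset.sum_congr rfl fun i _ => by ring
    rw [e4, Finset.mul_sum, Finset.mul_sum, ← Finset.sum_sub_distrib, ← Finset.sum_add_distrib]
    exact Finset.sum_congr rfl fun j _ => by ring
  rw [e3]
  have h2 : (1 / fro C) ^ 2 * ∑ j, (∑ i, C j i * y i) ^ 2 ≤ 1 / fro C * bY C y y := by
    refine (mul_le_mul_of_nonneg_left h1 (sq_nonneg _)).trans (le_of_eq ?_)
    rw [pow_two]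
    field_simp
  have h3 : 0 ≤ bY C y y := hC.bY_nonneg y
  have h4 : 0 ≤ 1 / fro C * bY C y y := mul_nonneg (by positivity) h3
  have e5 : ∑ j, (∑ i, C j i * v i) ^ 2 = ∑ j, y j ^ 2 := by rw [hy]
  rw [e5]
  linarith

/-- the column of the remainder -/
lemma rm_col_le (hC : Pf C) (hc : 0 < fro C) {b : Fin n} (h1 : C b b = 1) (v : Fin n → ℝ) :
    (∑ i, v i * rm C i b) ^ 2 ≤ bY C v v := by
  have hR := pf_rm hC hc
  have h2 := hR.cs v fun i => if i = b then (1 : ℝ) else 0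
  have e1 : bY (rm C) v (fun i => if i = b then (1 : ℝ) else 0) = ∑ i, v i * rm C i b := by
    unfold bY
    simp only [mul_ite, mul_one, mul_zero, Finset.sum_ite_eq', Finset.mem_univ, if_true]
    exact Finset.sum_congr rfl fun i _ => mul_comm _ _
  have e2 : bY (rm C) (fun i => if i = b then (1 : ℝ) else 0)
      (fun i => if i = b then (1 : ℝ) else 0) = rm C b b := by
    unfold bY
    simp
  have h3 := pow_le_pow_left₀ (abs_nonneg _) h2 2
  rw [sq_abs, mul_pow, hR.vn_sq, hR.vn_sq, e1, e2] at h3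
  have h4 : rm C b b ≤ 1 := by
    unfold rm
    have h5 : 0 ≤ (∑ l, C b l * C l b) / fro C := by
      refine div_nonneg (Finset.sum_nonneg fun l _ => ?_) hc.le
      rw [hC.sy b l]
      exact mul_self_nonneg _
    linarith
  have h6 := hR.bY_nonneg v
  calc (∑ i, v i * rm C i b) ^ 2 ≤ bY (rm C) v v * rm C b b := h3
    _ ≤ bY (rm C) v v * 1 := mul_le_mul_of_nonneg_left h4 h6
    _ ≤ bY C v v := by
      rw [mul_one]
      exact rm_le hC hc v

end form

section deep

variable {ι : Type} [Fintype ι] [DecidableEq ι] {R : Finset ι} {n : ℕ} {φ : (ι → ℝ) → ℝ}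

/-- the conditional mean of a matrix -/
noncomputable def avm (R : Finset ι) (φ : (ι → ℝ) → ℝ) (A : (ι → ℝ) → Fin n → Fin n → ℝ)
    (z : ι → ℝ) (i l : Fin n) : ℝ := Av R (fun w => φ w * A w i l) z

lemma eg_avm (hφ : EG φ) {A : (ι → ℝ) → Fin n → Fin n → ℝ} (hA : ∀ i l, EG fun w => A w i l)
    (i l : Fin n) : EG fun z => avm R φ A z i l := eg_Av R (hφ.mul (hA i l))

lemma avm_comm {A : (ι → ℝ) → Fin n → Fin n → ℝ} (hs : ∀ w i l, A w i l = A w l i) (z : ι → ℝ)
    (i l : Fin n) : avm R φ A z i l = avm R φ A z l i := by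
  unfold avm
  congr 1
  funext w
  rw [hs w i l]

lemma bY_avm (hφ : EG φ) {A : (ι → ℝ) → Fin n → Fin n → ℝ} (hA : ∀ i l, EG fun w => A w i l)
    (z : ι → ℝ) (v : Fin n → ℝ) :
    bY (avm R φ A z) v v = Av R (fun w => φ w * bY (A w) v v) z := by
  have e1 : ∀ w, φ w * bY (A w) v v = ∑ i, ∑ l, (v i * v l) * (φ w * A w i l) := by
    intro w
    unfold bY
    rw [Finset.mul_sum]
    refine Finset.sum_congr rfl fun i _ => ?_
    rw [Finset.mul_sum]
    exact Finset.sum_congr rfl fun l _ => by ring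
  rw [Av_congr e1, Av_sum _ fun i _ => EG.sum _ fun l _ => (hφ.mul (hA i l)).const_mul _]
  unfold bY avm
  refine Finset.sum_congr rfl fun i _ => ?_
  rw [Av_sum _ fun l _ => (hφ.mul (hA i l)).const_mul _]
  exact Finset.sum_congr rfl fun l _ => by rw [Av_const_mul, mul_comm]

lemma avm_mono (hφ : EG φ) (h0 : ∀ w, 0 ≤ φ w) {A B : (ι → ℝ) → Fin n → Fin n → ℝ}
    (hA : ∀ i l, EG fun w => A w i l) (hB : ∀ i l, EG fun w => B w i l)
    (h : ∀ w v, bY (A w) v v ≤ bY (B w) v v) (z : ι → ℝ) (v : Fin n → ℝ) :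
    bY (avm R φ A z) v v ≤ bY (avm R φ B z) v v := by
  rw [bY_avm hφ hA, bY_avm hφ hB]
  have eb : ∀ {A : (ι → ℝ) → Fin n → Fin n → ℝ}, (∀ i l, EG fun w => A w i l) →
      EG fun w => bY (A w) v v := fun hA =>
    EG.sum _ fun i _ => EG.sum _ fun l _ => (hA i l).mul (EG.const _)
  exact Av_mono (hφ.mul (eb hA)) (hφ.mul (eb hB))
    (fun w => mul_le_mul_of_nonneg_left (h w v) (h0 w)) z

lemma pf_avm (hφ : EG φ) (h0 : ∀ w, 0 ≤ φ w) {A : (ι → ℝ) → Fin n → Fin n → ℝ}
    (hA : ∀ i l, EG fun w => A w i l) (h : ∀ w, Pf (A w)) (z : ι → ℝ) : Pf (avm R φ A z) where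
  sy := avm_comm (fun w => (h w).sy) z
  ps v := by
    have h1 : ∑ i, ∑ l, avm R φ A z i l * (v i * v l) =
        Av R (fun w => φ w * bY (A w) v v) z := bY_avm hφ hA z v
    rw [h1]
    exact Av_nonneg (fun w => mul_nonneg (h0 w) ((h w).bY_nonneg v)) z

variable {C : (ι → ℝ) → Fin n → Fin n → ℝ}

/-- **The pointwise inequality (columns).** -/
theorem cols_le (hφ : EG φ) (h0 : ∀ w, 0 ≤ φ w) (hC : ∀ i l, EG fun w => C w i l)
    (hCp : ∀ w, Pf (C w)) (hc : ∀ w, 0 < fro (C w)) (h1 : ∀ w b, C w b b = 1)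
    (hR : ∀ i l, EG fun w => rm (C w) i l) (z : ι → ℝ) :
    ∑ b, ∑ i, ∑ l, avm R φ (fun w i l => rm (C w) i b * rm (C w) l b) z i l ^ 2 ≤
      ∑ i, ∑ l, avm R φ (fun w => sqm (C w)) z i l * avm R φ C z i l := by
  have eΓ : ∀ b i l, EG fun w => rm (C w) i b * rm (C w) l b := fun b i l =>
    (hR i b).mul (hR l b)
  have eS : ∀ i l, EG fun w => sqm (C w) i l := fun i l => EG.sum _ fun j _ =>
    (hC i j).mul (hC j l)
  have eS' : ∀ i l, EG fun w => sqm (rm (C w)) i l := fun i l => EG.sum _ fun j _ =>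
    (hR i j).mul (hR j l)
  have pC : Pf (avm R φ C z) := pf_avm hφ h0 hC hCp z
  have step : ∀ b, ∑ i, ∑ l, avm R φ (fun w i l => rm (C w) i b * rm (C w) l b) z i l ^ 2 ≤
      ∑ i, ∑ l, avm R φ (fun w i l => rm (C w) i b * rm (C w) l b) z i l * avm R φ C z i l := by
    intro b
    have pΓ : Pf (avm R φ (fun w i l => rm (C w) i b * rm (C w) l b) z) := by
      refine pf_avm hφ h0 (eΓ b) (fun w => ⟨fun i l => mul_comm _ _, fun v => ?_⟩) z
      have e : ∑ i, ∑ l, rm (C w) i b * rm (C w) l b * (v i * v l) =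
          (∑ i, v i * rm (C w) i b) * ∑ l, v l * rm (C w) l b := by
        rw [Finset.sum_mul_sum]
        exact Finset.sum_congr rfl fun i _ => Finset.sum_congr rfl fun l _ => by ring
      rw [e]
      exact mul_self_nonneg _
    have e : ∑ i, ∑ l, avm R φ (fun w i l => rm (C w) i b * rm (C w) l b) z i l ^ 2 =
        ∑ i, ∑ l, avm R φ (fun w i l => rm (C w) i b * rm (C w) l b) z i l *
          avm R φ (fun w i l => rm (C w) i b * rm (C w) l b) z i l := by
      simp only [pow_two]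
    rw [e]
    refine pf_ip_mono pΓ pΓ.sy pC.sy fun v => ?_
    refine avm_mono hφ h0 (eΓ b) hC (fun w v => ?_) z v
    have e2 : bY (fun i l => rm (C w) i b * rm (C w) l b) v v =
        (∑ i, v i * rm (C w) i b) ^ 2 := by
      unfold bY
      rw [pow_two, Finset.sum_mul_sum]
      exact Finset.sum_congr rfl fun i _ => Finset.sum_congr rfl fun l _ => by ring
    rw [e2]
    exact rm_col_le (hCp w) (hc w) (h1 w b) v
  refine (Finset.sum_le_sum fun b _ => step b).trans ?_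
  have e3 : ∑ b, ∑ i, ∑ l, avm R φ (fun w i l => rm (C w) i b * rm (C w) l b) z i l *
      avm R φ C z i l = ∑ i, ∑ l, avm R φ C z i l * avm R φ (fun w => sqm (rm (C w))) z i l := by
    rw [Finset.sum_comm]
    refine Finset.sum_congr rfl fun i _ => ?_
    rw [Finset.sum_comm]
    refine Finset.sum_congr rfl fun l _ => ?_
    rw [← Finset.sum_mul, mul_comm]
    congr 1
    unfold avm
    rw [← Av_sum _ fun b _ => hφ.mul (eΓ b i l)]
    refine Av_congr (fun w => ?_) z
    unfold sqm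
    rw [Finset.mul_sum]
    refine Finset.sum_congr rfl fun b _ => ?_
    rw [(pf_rm (hCp w) (hc w)).sy l b]
  rw [e3]
  refine (pf_ip_mono pC (avm_comm (fun w => sqm_comm (pf_rm (hCp w) (hc w)).sy) z)
    (avm_comm (fun w => sqm_comm (hCp w).sy) z) fun v =>
      avm_mono hφ h0 eS' eS (fun w v => rm_sq_le (hCp w) (hc w) v) z v).trans (le_of_eq ?_)
  exact Finset.sum_congr rfl fun i _ => Finset.sum_congr rfl fun l _ => mul_comm _ _

/-- **The pointwise inequality (squares).** -/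
theorem sqs_le (hφ : EG φ) (h0 : ∀ w, 0 ≤ φ w) (hC : ∀ i l, EG fun w => C w i l)
    (hCp : ∀ w, Pf (C w)) (hc : ∀ w, 0 < fro (C w)) (hR : ∀ i l, EG fun w => rm (C w) i l)
    (z : ι → ℝ) :
    ∑ i, ∑ l, avm R φ (fun w => sqm (rm (C w))) z i l ^ 2 ≤
      ∑ i, ∑ l, avm R φ (fun w => sqm (C w)) z i l ^ 2 := by
  have eS : ∀ i l, EG fun w => sqm (C w) i l := fun i l => EG.sum _ fun j _ =>
    (hC i j).mul (hC j l)
  have eS' : ∀ i l, EG fun w => sqm (rm (C w)) i l := fun i l => EG.sum _ fun j _ =>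
    (hR i j).mul (hR j l)
  have p1 : Pf (avm R φ (fun w => sqm (rm (C w))) z) :=
    pf_avm hφ h0 eS' (fun w => pf_sqm (pf_rm (hCp w) (hc w)).sy) z
  have p2 : Pf (avm R φ (fun w => sqm (C w)) z) :=
    pf_avm hφ h0 eS (fun w => pf_sqm (hCp w).sy) z
  have hm : ∀ v, bY (avm R φ (fun w => sqm (rm (C w))) z) v v ≤
      bY (avm R φ (fun w => sqm (C w)) z) v v := fun v =>
    avm_mono hφ h0 eS' eS (fun w v => rm_sq_le (hCp w) (hc w) v) z v
  have h1 := pf_ip_mono p1 p1.sy p2.sy hm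
  have h2 := pf_ip_mono p2 p1.sy p2.sy hm
  have e1 : ∑ i, ∑ l, avm R φ (fun w => sqm (C w)) z i l *
      avm R φ (fun w => sqm (rm (C w))) z i l =
      ∑ i, ∑ l, avm R φ (fun w => sqm (rm (C w))) z i l *
        avm R φ (fun w => sqm (C w)) z i l :=
    Finset.sum_congr rfl fun i _ => Finset.sum_congr rfl fun l _ => mul_comm _ _
  simp only [pow_two]
  linarith

/-- **The touch of the deep weight, columns of the remainder.** -/
theorem deep_cols (hφ : EG φ) (h0 : ∀ w, 0 ≤ φ w) (hC : ∀ i l, EG fun w => C w i l)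
    (hCp : ∀ w, Pf (C w)) (hc : ∀ w, 0 < fro (C w)) (h1 : ∀ w b, C w b b = 1)
    (hR : ∀ i l, EG fun w => rm (C w) i l) {D : Fin n → (ι → ℝ) → Fin n → Fin n → ℝ}
    (hD : ∀ b i l, EG fun w => D b w i l) (hi : ∀ b i l, Ind R fun w => D b w i l) :
    |∫ w, φ w * ∑ b, bY (D b w) (fun i => rm (C w) i b) (fun i => rm (C w) i b) ∂(gI ι)| ≤
      √(∫ w, ∑ b, ∑ i, ∑ l, D b w i l ^ 2 ∂(gI ι)) *
      √(∫ w, φ w * ∑ i, ∑ l, C w i l * avm R φ (fun w => sqm (C w)) w i l ∂(gI ι)) := by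
  have eΓ : ∀ b i l, EG fun w => rm (C w) i b * rm (C w) l b := fun b i l =>
    (hR i b).mul (hR l b)
  have eS : ∀ i l, EG fun w => sqm (C w) i l := fun i l => EG.sum _ fun j _ =>
    (hC i j).mul (hC j l)
  have eA : ∀ b i l, EG fun w => avm R φ (fun w i l => rm (C w) i b * rm (C w) l b) w i l :=
    fun b i l => eg_avm hφ (eΓ b) i l
  have e2 : ∀ i l, EG fun w => avm R φ (fun w => sqm (C w)) w i l := fun i l =>
    eg_avm hφ eS i l
  have e3 : ∀ i l, EG fun w => avm R φ C w i l := fun i l => eg_avm hφ hC i l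
  have k1 : ∫ w, φ w * ∑ b, bY (D b w) (fun i => rm (C w) i b) (fun i => rm (C w) i b) ∂(gI ι) =
      ∫ w, ∑ q : Fin n × Fin n × Fin n, D q.1 w q.2.1 q.2.2 *
        avm R φ (fun w i l => rm (C w) i q.1 * rm (C w) l q.1) w q.2.1 q.2.2 ∂(gI ι) := by
    have e : ∀ w, φ w * ∑ b, bY (D b w) (fun i => rm (C w) i b) (fun i => rm (C w) i b) =
        ∑ q : Fin n × Fin n × Fin n, D q.1 w q.2.1 q.2.2 *
          (φ w * (rm (C w) q.2.1 q.1 * rm (C w) q.2.2 q.1)) := by
      intro w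
      simp only [Fintype.sum_prod_type]
      rw [Finset.mul_sum]
      refine Finset.sum_congr rfl fun b _ => ?_
      unfold bY
      rw [Finset.mul_sum]
      refine Finset.sum_congr rfl fun i _ => ?_
      rw [Finset.mul_sum]
      exact Finset.sum_congr rfl fun l _ => by ring
    simp only [e]
    rw [integral_finsetSum _ fun q _ =>
        ((hD q.1 q.2.1 q.2.2).mul (hφ.mul (eΓ q.1 q.2.1 q.2.2))).integrable,
      integral_finsetSum _ fun q _ =>
        ((hD q.1 q.2.1 q.2.2).mul (eA q.1 q.2.1 q.2.2)).integrable]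
    exact Finset.sum_congr rfl fun q _ =>
      integral_weight (hD q.1 q.2.1 q.2.2) (hi q.1 q.2.1 q.2.2)
        (hφ.mul (eΓ q.1 q.2.1 q.2.2))
  rw [k1]
  refine (H508.Deep.int_cs (f := fun (q : Fin n × Fin n × Fin n) w => D q.1 w q.2.1 q.2.2)
    (g := fun (q : Fin n × Fin n × Fin n) w =>
      avm R φ (fun w i l => rm (C w) i q.1 * rm (C w) l q.1) w q.2.1 q.2.2)
    (fun q => hD q.1 q.2.1 q.2.2) fun q => eA q.1 q.2.1 q.2.2).trans ?_
  have k2 : ∫ w, ∑ q : Fin n × Fin n × Fin n, D q.1 w q.2.1 q.2.2 ^ 2 ∂(gI ι) =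
      ∫ w, ∑ b, ∑ i, ∑ l, D b w i l ^ 2 ∂(gI ι) := by
    simp only [Fintype.sum_prod_type]
  have k3 : ∫ w, ∑ q : Fin n × Fin n × Fin n,
      avm R φ (fun w i l => rm (C w) i q.1 * rm (C w) l q.1) w q.2.1 q.2.2 ^ 2 ∂(gI ι) ≤
      ∫ w, φ w * ∑ i, ∑ l, C w i l * avm R φ (fun w => sqm (C w)) w i l ∂(gI ι) := by
    have h2 : ∫ w, ∑ q : Fin n × Fin n × Fin n,
        avm R φ (fun w i l => rm (C w) i q.1 * rm (C w) l q.1) w q.2.1 q.2.2 ^ 2 ∂(gI ι) ≤
        ∫ w, ∑ i, ∑ l, avm R φ (fun w => sqm (C w)) w i l * avm R φ C w i l ∂(gI ι) := by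
      refine integral_mono (EG.sum _ fun q _ => (eA q.1 q.2.1 q.2.2).pow 2).integrable
        (EG.sum _ fun i _ => EG.sum _ fun l _ => (e2 i l).mul (e3 i l)).integrable fun w => ?_
      simp only [Fintype.sum_prod_type]
      exact cols_le hφ h0 hC hCp hc h1 hR w
    refine h2.trans (le_of_eq ?_)
    have e : ∀ w, φ w * ∑ i, ∑ l, C w i l * avm R φ (fun w => sqm (C w)) w i l =
        ∑ i, ∑ l, avm R φ (fun w => sqm (C w)) w i l * (φ w * C w i l) := by
      intro w
      rw [Finset.mul_sum]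
      refine Finset.sum_congr rfl fun i _ => ?_
      rw [Finset.mul_sum]
      exact Finset.sum_congr rfl fun l _ => by ring
    simp only [e]
    rw [integral_finsetSum _ fun i _ => (EG.sum _ fun l _ => (e2 i l).mul (e3 i l)).integrable,
      integral_finsetSum _ fun i _ =>
        (EG.sum _ fun l _ => (e2 i l).mul (hφ.mul (hC i l))).integrable]
    refine Finset.sum_congr rfl fun i _ => ?_
    rw [integral_finsetSum _ fun l _ => ((e2 i l).mul (e3 i l)).integrable,
      integral_finsetSum _ fun l _ => ((e2 i l).mul (hφ.mul (hC i l))).integrable]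
    exact Finset.sum_congr rfl fun l _ =>
      (integral_weight (e2 i l) (ind_Av R _) (hφ.mul (hC i l))).symm
  rw [k2]
  exact mul_le_mul_of_nonneg_left (Real.sqrt_le_sqrt k3) (Real.sqrt_nonneg _)

/-- **The touch of the deep weight, the square of the remainder.** -/
theorem deep_sqs (hφ : EG φ) (h0 : ∀ w, 0 ≤ φ w) (hC : ∀ i l, EG fun w => C w i l)
    (hCp : ∀ w, Pf (C w)) (hc : ∀ w, 0 < fro (C w))
    (hR : ∀ i l, EG fun w => rm (C w) i l) {D : Fin n → (ι → ℝ) → Fin n → Fin n → ℝ}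
    (hD : ∀ b i l, EG fun w => D b w i l) (hi : ∀ b i l, Ind R fun w => D b w i l) :
    |∫ w, φ w * ∑ b, bM (D b w) (rm (C w)) (rm (C w)) ∂(gI ι)| ≤
      √(∫ w, ∑ b, ∑ i, ∑ l, D b w i l ^ 2 ∂(gI ι)) *
      (√n * √(∫ w, φ w * ∑ i, ∑ l, sqm (C w) i l *
        avm R φ (fun w => sqm (C w)) w i l ∂(gI ι))) := by
  have eS : ∀ i l, EG fun w => sqm (C w) i l := fun i l => EG.sum _ fun j _ =>
    (hC i j).mul (hC j l)
  have eS' : ∀ i l, EG fun w => sqm (rm (C w)) i l := fun i l => EG.sum _ fun j _ =>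
    (hR i j).mul (hR j l)
  have e1 : ∀ i l, EG fun w => avm R φ (fun w => sqm (rm (C w))) w i l := fun i l =>
    eg_avm hφ eS' i l
  have e2 : ∀ i l, EG fun w => avm R φ (fun w => sqm (C w)) w i l := fun i l =>
    eg_avm hφ eS i l
  have k1 : ∫ w, φ w * ∑ b, bM (D b w) (rm (C w)) (rm (C w)) ∂(gI ι) =
      ∫ w, ∑ q : Fin n × Fin n × Fin n, D q.1 w q.2.1 q.2.2 *
        avm R φ (fun w => sqm (rm (C w))) w q.2.1 q.2.2 ∂(gI ι) := by
    have e : ∀ w, φ w * ∑ b, bM (D b w) (rm (C w)) (rm (C w)) =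
        ∑ q : Fin n × Fin n × Fin n, D q.1 w q.2.1 q.2.2 *
          (φ w * sqm (rm (C w)) q.2.1 q.2.2) := by
      intro w
      simp only [Fintype.sum_prod_type]
      rw [Finset.mul_sum]
      refine Finset.sum_congr rfl fun b _ => ?_
      have e4 : bM (D b w) (rm (C w)) (rm (C w)) =
          ∑ i, ∑ l, D b w i l * sqm (rm (C w)) i l := by
        unfold bM bY
        rw [Finset.sum_comm]
        refine Finset.sum_congr rfl fun i _ => ?_
        rw [Finset.sum_comm]
        refine Finset.sum_congr rfl fun l _ => ?_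
        unfold sqm
        rw [Finset.mul_sum]
        exact Finset.sum_congr rfl fun j _ => by rw [(pf_rm (hCp w) (hc w)).sy j l]
      rw [e4, Finset.mul_sum]
      refine Finset.sum_congr rfl fun i _ => ?_
      rw [Finset.mul_sum]
      exact Finset.sum_congr rfl fun l _ => by ring
    simp only [e]
    rw [integral_finsetSum _ fun q _ =>
        ((hD q.1 q.2.1 q.2.2).mul (hφ.mul (eS' q.2.1 q.2.2))).integrable,
      integral_finsetSum _ fun q _ =>
        ((hD q.1 q.2.1 q.2.2).mul (e1 q.2.1 q.2.2)).integrable]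
    exact Finset.sum_congr rfl fun q _ =>
      integral_weight (hD q.1 q.2.1 q.2.2) (hi q.1 q.2.1 q.2.2) (hφ.mul (eS' q.2.1 q.2.2))
  rw [k1]
  refine (H508.Deep.int_cs (f := fun (q : Fin n × Fin n × Fin n) w => D q.1 w q.2.1 q.2.2)
    (g := fun (q : Fin n × Fin n × Fin n) w =>
      avm R φ (fun w => sqm (rm (C w))) w q.2.1 q.2.2)
    (fun q => hD q.1 q.2.1 q.2.2) fun q => e1 q.2.1 q.2.2).trans ?_
  have k2 : ∫ w, ∑ q : Fin n × Fin n × Fin n, D q.1 w q.2.1 q.2.2 ^ 2 ∂(gI ι) =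
      ∫ w, ∑ b, ∑ i, ∑ l, D b w i l ^ 2 ∂(gI ι) := by
    simp only [Fintype.sum_prod_type]
  have k3 : ∫ w, ∑ q : Fin n × Fin n × Fin n,
      avm R φ (fun w => sqm (rm (C w))) w q.2.1 q.2.2 ^ 2 ∂(gI ι) ≤
      n * ∫ w, φ w * ∑ i, ∑ l, sqm (C w) i l *
        avm R φ (fun w => sqm (C w)) w i l ∂(gI ι) := by
    have h2 : ∫ w, ∑ q : Fin n × Fin n × Fin n,
        avm R φ (fun w => sqm (rm (C w))) w q.2.1 q.2.2 ^ 2 ∂(gI ι) ≤
        ∫ w, n * ∑ i, ∑ l, avm R φ (fun w => sqm (C w)) w i l *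
          avm R φ (fun w => sqm (C w)) w i l ∂(gI ι) := by
      refine integral_mono (EG.sum _ fun q _ => (e1 q.2.1 q.2.2).pow 2).integrable
        ((EG.sum _ fun i _ => EG.sum _ fun l _ => (e2 i l).mul (e2 i l)).const_mul _).integrable
        fun w => ?_
      simp only [Fintype.sum_prod_type, Finset.sum_const, Finset.card_univ, Fintype.card_fin,
        nsmul_eq_mul]
      have h3 := sqs_le hφ h0 hC hCp hc hR w (R := R)
      simp only [← pow_two]
      exact mul_le_mul_of_nonneg_left h3 (Nat.cast_nonneg n)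
    refine h2.trans (le_of_eq ?_)
    rw [integral_const_mul]
    congr 1
    have e : ∀ w, φ w * ∑ i, ∑ l, sqm (C w) i l * avm R φ (fun w => sqm (C w)) w i l =
        ∑ i, ∑ l, avm R φ (fun w => sqm (C w)) w i l * (φ w * sqm (C w) i l) := by
      intro w
      rw [Finset.mul_sum]
      refine Finset.sum_congr rfl fun i _ => ?_
      rw [Finset.mul_sum]
      exact Finset.sum_congr rfl fun l _ => by ring
    simp only [e]
    rw [integral_finsetSum _ fun i _ => (EG.sum _ fun l _ => (e2 i l).mul (e2 i l)).integrable,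
      integral_finsetSum _ fun i _ =>
        (EG.sum _ fun l _ => (e2 i l).mul (hφ.mul (eS i l))).integrable]
    refine Finset.sum_congr rfl fun i _ => ?_
    rw [integral_finsetSum _ fun l _ => ((e2 i l).mul (e2 i l)).integrable,
      integral_finsetSum _ fun l _ => ((e2 i l).mul (hφ.mul (eS i l))).integrable]
    exact Finset.sum_congr rfl fun l _ =>
      (integral_weight (e2 i l) (ind_Av R _) (hφ.mul (eS i l))).symm
  rw [k2, ← Real.sqrt_mul (Nat.cast_nonneg n)]
  exact mul_le_mul_of_nonneg_left (Real.sqrt_le_sqrt k3) (Real.sqrt_nonneg _)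

end deep

end Vale.Agent.P146.H571
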