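import Vale.Agent.P146.H571.PerpF

/-!
Plan R2, row F2: **the number of the transversal part, summed over the rows**, in terms of the
form of the rest `tr (Y (rem C)²)` (`perp_numD`).
-/

open MeasureTheory ProbabilityTheory Finset

namespace Vale.Agent.P146.H571

open Vale.Agent.P157.Lv Vale.Agent.P146.H425 Vale.Agent.P146.H325 Vale.Agent.P146.H332
  Vale.Agent.P146.H712 Vale.Agent.P146.R1 Vale.Agent.P146.R1C Vale.Agent.P146.H706
  Vale.Agent.P146.R1S Vale.Agent.P146.H191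
open Vale.Agent.P146.H350 (mv Nv)

set_option linter.unusedSectionVars false

variable {n : ℕ} {k x : ℝ} {S : CS n k x} {s : ℝ} {φ : (K4 (Pair n) → ℝ) → ℝ}
  {ψ' : K4 (Pair n) → (K4 (Pair n) → ℝ) → ℝ} {a : Fin 4 → ℝ}

/-- **The transversal part of the rest, summed over the rows.**  `Y b` is the frozen weight of the
row `b`, `Y0` the weight, a function of the coordinates outside `R`; `M b` the frozen matrix. -/
theorem perp_numD (h : Den φ ψ') (hφ : ∀ w, 0 ≤ φ w) (hn : 1 ≤ n) {Y M : Fin n → MF n}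
    {Y0 : MF n} {R : Finset (K4 (Pair n))}
    (hY : ∀ b, Frz b (Y b)) (hYp : ∀ b w, Pf (Y b w)) (hM : ∀ b, FM b (M b))
    (hY0 : ∀ i l, EG fun w => Y0 w i l)
    (hi : ∀ b i l, Ind R fun w => Y b w i l - Y0 w i l) {β V0 : ℝ}
    (hV : ∀ b w, ven (dv a ψ' b w) ^ 2 ≤ V0) :
    ∑ b, Im φ (fun w => bY (Y b w) (qv (M b w) (Nv S s a β b (M b) w))
      (qv (M b w) (Nv S s a β b (M b) w))) ≤
      (6 + 6 * (k / β) ^ 2 * (2 * vr a + V0) * n) *
        Im φ (fun w => bM (Y0 w) (rm (Cw S s a w)) (rm (Cw S s a w))) +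
      6 * ∑ b, Im φ (fun w => Y b w b b) +
      (12 / √n + 24 * (k / β) ^ 2 * (2 * vr a + V0)) *
        ∑ b, Im φ (fun w => tn (Y b w) (M b w) (Cw S s a w)) +
      √(∫ w, ∑ b, ∑ i, ∑ l, (Y b w i l - Y0 w i l) ^ 2 ∂(gI (K4 (Pair n)))) *
      (6 * √(Im φ (fun w => ∑ i, ∑ l, Cw S s a w i l *
          avm R φ (fun w => sqm (Cw S s a w)) w i l)) +
        6 * (k / β) ^ 2 * (2 * vr a + V0) * √n *
          √(Im φ (fun w => ∑ i, ∑ l, sqm (Cw S s a w) i l *
            avm R φ (fun w => sqm (Cw S s a w)) w i l))) := by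
  obtain ⟨C, hC⟩ : ∃ C : MF n, C = Cw S s a := ⟨_, rfl⟩
  have hrow := fun b => perp_row (S := S) (s := s) (a := a) (b := b) h hφ hn (hY b) (hYp b) (hM b)
    (β := β) (hV b)
  simp only [← hC] at hrow ⊢
  have eC : ∀ i l, EG fun w => C w i l := by rw [hC]; exact eg_Cw
  have eCi : EG fun w => (fro (C w))⁻¹ := by rw [hC]; exact eg_Cinv hn
  have hCp : ∀ w, Pf (C w) := by rw [hC]; exact pf_Cw
  have hc : ∀ w, 0 < fro (C w) := by rw [hC]; exact Cw_pos hn
  have hC1 : ∀ w b, C w b b = 1 := by rw [hC]; exact fun w b => S.A_self s _ b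
  have eR : ∀ i l, EG fun w => rm (C w) i l := fun i l => eg_rm eC eCi i l
  have hsum := Finset.sum_le_sum fun b (_ : b ∈ Finset.univ) => hrow b
  refine hsum.trans ?_
  simp only [Finset.sum_add_distrib, ← Finset.mul_sum]
  obtain ⟨D, hD⟩ : ∃ D : Fin n → MF n, D = fun b w i l => Y b w i l - Y0 w i l := ⟨_, rfl⟩
  have eD : ∀ b i l, EG fun w => D b w i l := by
    rw [hD]
    exact fun b i l => ((hY b).eg i l).sub (hY0 i l)
  have iD : ∀ b i l, Ind R fun w => D b w i l := by rw [hD]; exact hi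
  have bsplit : ∀ b w (f : Fin n → ℝ), bY (Y b w) f f = bY (Y0 w) f f + bY (D b w) f f := by
    intro b w f
    unfold bY
    rw [hD]
    simp only [← Finset.sum_add_distrib]
    exact Finset.sum_congr rfl fun i _ => Finset.sum_congr rfl fun l _ => by ring
  have d1 := deep_cols (R := R) h.eg hφ eC hCp hc hC1 eR eD iD
  have d2 := deep_sqs (R := R) h.eg hφ eC hCp hc eR eD iD
  have g1 : ∀ b, EG fun w => bY (D b w) (fun i => rm (C w) i b) fun i => rm (C w) i b := fun b =>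
    eg_bY (eD b) (fun i => eR i b) fun i => eR i b
  have g2 : ∀ b, EG fun w => bM (D b w) (rm (C w)) (rm (C w)) := fun b => eg_bM (eD b) eR eR
  have g3 : ∀ b, EG fun w => bY (Y0 w) (fun i => rm (C w) i b) fun i => rm (C w) i b := fun b =>
    eg_bY hY0 (fun i => eR i b) fun i => eR i b
  have g4 : EG fun w => bM (Y0 w) (rm (C w)) (rm (C w)) := eg_bM hY0 eR eR
  -- the main number
  obtain ⟨P, hP⟩ : ∃ P, P = Im φ (fun w => bM (Y0 w) (rm (C w)) (rm (C w))) := ⟨_, rfl⟩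
  have hmain : Im φ (fun w => bM (Y0 w) (rm (C w)) (rm (C w))) ≤ P := by
    rw [hP]
  obtain ⟨TY, hTY⟩ : ∃ TY, TY = √(∫ w, ∑ b, ∑ i, ∑ l, (Y b w i l - Y0 w i l) ^ 2
    ∂(gI (K4 (Pair n)))) := ⟨_, rfl⟩
  have eTY : √(∫ w, ∑ b, ∑ i, ∑ l, D b w i l ^ 2 ∂(gI (K4 (Pair n)))) = TY := by
    rw [hTY, hD]
  rw [eTY] at d1 d2
  rw [← hTY, ← hP]
  -- the columns
  have h1 : ∑ b, Im φ (fun w => bY (Y b w) (fun i => rm (C w) i b) fun i => rm (C w) i b) ≤
      P + TY * √(Im φ (fun w => ∑ i, ∑ l, C w i l * avm R φ (fun w => sqm (C w)) w i l)) := by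
    have e1 : ∑ b, Im φ (fun w => bY (Y b w) (fun i => rm (C w) i b) fun i => rm (C w) i b) =
        Im φ (fun w => bM (Y0 w) (rm (C w)) (rm (C w))) +
        Im φ (fun w => ∑ b, bY (D b w) (fun i => rm (C w) i b) fun i => rm (C w) i b) := by
      have e2 : ∀ b, Im φ (fun w => bY (Y b w) (fun i => rm (C w) i b) fun i => rm (C w) i b) =
          Im φ (fun w => bY (Y0 w) (fun i => rm (C w) i b) fun i => rm (C w) i b) +
          Im φ (fun w => bY (D b w) (fun i => rm (C w) i b) fun i => rm (C w) i b) := by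
        intro b
        rw [← Im_add h.eg (g3 b) (g1 b)]
        exact Im_congr fun w => bsplit b w _
      simp only [e2, Finset.sum_add_distrib]
      rw [← Im_sum h.eg _ fun b _ => g3 b, ← Im_sum h.eg _ fun b _ => g1 b]
      rfl
    rw [e1]
    have e3 : Im φ (fun w => ∑ b, bY (D b w) (fun i => rm (C w) i b) fun i => rm (C w) i b) ≤
        TY * √(Im φ (fun w => ∑ i, ∑ l, C w i l * avm R φ (fun w => sqm (C w)) w i l)) :=
      (le_abs_self _).trans d1
    linarith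
  have h2 : ∑ b, Im φ (fun w => bM (Y b w) (rm (C w)) (rm (C w))) ≤
      n * P + TY * (√n * √(Im φ (fun w => ∑ i, ∑ l, sqm (C w) i l *
        avm R φ (fun w => sqm (C w)) w i l))) := by
    have e1 : ∑ b, Im φ (fun w => bM (Y b w) (rm (C w)) (rm (C w))) =
        n * Im φ (fun w => bM (Y0 w) (rm (C w)) (rm (C w))) +
        Im φ (fun w => ∑ b, bM (D b w) (rm (C w)) (rm (C w))) := by
      have e2 : ∀ b, Im φ (fun w => bM (Y b w) (rm (C w)) (rm (C w))) =
          Im φ (fun w => bM (Y0 w) (rm (C w)) (rm (C w))) +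
          Im φ (fun w => bM (D b w) (rm (C w)) (rm (C w))) := by
        intro b
        rw [← Im_add h.eg g4 (g2 b)]
        refine Im_congr fun w => ?_
        unfold bM
        rw [← Finset.sum_add_distrib]
        exact Finset.sum_congr rfl fun j _ => bsplit b w _
      simp only [e2, Finset.sum_add_distrib, Finset.sum_const, Finset.card_univ,
        Fintype.card_fin, nsmul_eq_mul]
      rw [← Im_sum h.eg _ fun b _ => g2 b]
    rw [e1]
    have e3 : Im φ (fun w => ∑ b, bM (D b w) (rm (C w)) (rm (C w))) ≤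
        TY * (√n * √(Im φ (fun w => ∑ i, ∑ l, sqm (C w) i l *
          avm R φ (fun w => sqm (C w)) w i l))) := (le_abs_self _).trans d2
    have e4 := mul_le_mul_of_nonneg_left hmain (Nat.cast_nonneg n (α := ℝ))
    linarith
  -- assembly
  obtain ⟨T, hT⟩ : ∃ T, T = ∑ b, Im φ (fun w => tn (Y b w) (M b w) (C w)) := ⟨_, rfl⟩
  obtain ⟨B1, hB1⟩ : ∃ B1, B1 = √(Im φ (fun w => ∑ i, ∑ l, C w i l *
    avm R φ (fun w => sqm (C w)) w i l)) := ⟨_, rfl⟩
  obtain ⟨B2, hB2⟩ : ∃ B2, B2 = √(Im φ (fun w => ∑ i, ∑ l, sqm (C w) i l *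
    avm R φ (fun w => sqm (C w)) w i l)) := ⟨_, rfl⟩
  obtain ⟨X1, hX1⟩ : ∃ X1, X1 = ∑ b, Im φ (fun w => bY (Y b w) (fun i => rm (C w) i b)
    fun i => rm (C w) i b) := ⟨_, rfl⟩
  obtain ⟨X2, hX2⟩ : ∃ X2, X2 = ∑ b, Im φ (fun w => bM (Y b w) (rm (C w)) (rm (C w))) :=
    ⟨_, rfl⟩
  rw [← hX1, ← hB1] at h1
  rw [← hX2, ← hB2] at h2
  rw [← hT, ← hB1, ← hB2, ← hX1, ← hX2]
  have hV0 : 0 ≤ (k / β) ^ 2 * (2 * vr a + V0) := by
    refine mul_nonneg (sq_nonneg _) ?_
    have := vr_nonneg a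
    have := (sq_nonneg (ven (dv a ψ' ⟨0, hn⟩ 0))).trans (hV ⟨0, hn⟩ 0)
    linarith
  have h3 := mul_le_mul_of_nonneg_left h2 hV0
  nlinarith [h1, h3]

end Vale.Agent.P146.H571
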